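import Vale.Agent.P095E.Defs

namespace Vale.Agent.P095E

universe u v

section avg

variable {G : Type v} [Group G] [Fintype G] {F : Type u} [CStarAlgebra F]
    (β : G →* (F ≃⋆ₐ[ℂ] F))

omit [Fintype G] in
private theorem avg_mul_apply (g h : G) (y : F) : β (g * h) y = β g (β h y) := by
  rw [map_mul]
  rfl

private theorem avg_mem (y : F) : (Fintype.card G : ℂ)⁻¹ • ∑ g, β g y ∈ Fix β := by
  rw [mem_fix]
  intro k
  rw [map_smul, map_sum]
  congr 1
  rw [← Equiv.sum_comp (Equiv.mulLeft k : G ≃ G) (fun g => β g y)]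
  exact Finset.sum_congr rfl fun g _ => (avg_mul_apply β k g y).symm

/-- the average -/
noncomputable def avgE : F →ₗ[ℂ] Fix β where
  toFun y := ⟨(Fintype.card G : ℂ)⁻¹ • ∑ g, β g y, avg_mem β y⟩
  map_add' y z := by
    apply Subtype.ext
    simp only [map_add, Finset.sum_add_distrib, smul_add]
    rfl
  map_smul' c y := by
    apply Subtype.ext
    simp only [map_smul, ← Finset.smul_sum, RingHom.id_apply]
    rw [smul_comm]
    rfl

private theorem avgE_coe (y : F) : (avgE β y : F) = (Fintype.card G : ℂ)⁻¹ • ∑ g, β g y := rfl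

private theorem avg_card : (Fintype.card G : ℂ) ≠ 0 := by
  exact_mod_cast (Fintype.card_pos (α := G)).ne'

private theorem avgE_one : avgE β 1 = 1 := by
  apply Subtype.ext
  rw [avgE_coe]
  simp only [map_one, Finset.sum_const, Finset.card_univ, ← Nat.cast_smul_eq_nsmul ℂ]
  rw [smul_smul, inv_mul_cancel₀ (avg_card (G := G)), one_smul]
  rfl

private theorem avgE_star (y : F) : avgE β (star y) = star (avgE β y) := by
  apply Subtype.ext
  change (avgE β (star y) : F) = star (avgE β y : F)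
  rw [avgE_coe, avgE_coe, star_smul, star_sum]
  simp only [map_star]
  congr 1
  simp

private theorem avgE_pos (y : F) : ∃ b : Fix β, avgE β (star y * y) = star b * b := by
  let _ : PartialOrder F := CStarAlgebra.spectralOrder F
  have _ : StarOrderedRing F := CStarAlgebra.spectralOrderedRing F
  have h0 : (0 : F) ≤ (avgE β (star y * y) : F) := by
    rw [avgE_coe]
    have h1 : ∀ g, (0 : F) ≤ β g (star y * y) := by
      intro g
      rw [map_mul, map_star]
      exact star_mul_self_nonneg _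
    have h2 : (0 : F) ≤ ∑ g, β g (star y * y) := Finset.sum_nonneg fun g _ => h1 g
    have h3 : ((Fintype.card G : ℂ)⁻¹ • ∑ g, β g (star y * y) : F)
        = ((Fintype.card G : ℝ)⁻¹) • ∑ g, β g (star y * y) := by
      rw [← Complex.coe_smul]
      congr 1
      push_cast
      rfl
    rw [h3]
    exact smul_nonneg (by positivity) h2
  set a : F := (avgE β (star y * y) : F) with ha
  have hfix : ∀ g, β g a = a := (mem_fix β a).1 (avgE β (star y * y)).2
  have hs0 : 0 ≤ CFC.sqrt a := CFC.sqrt_nonneg a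
  have hss : CFC.sqrt a * CFC.sqrt a = a := CFC.sqrt_mul_sqrt_self a h0
  have hmem : CFC.sqrt a ∈ Fix β := by
    rw [mem_fix]
    intro g
    have h4 : 0 ≤ β g (CFC.sqrt a) := map_nonneg (β g) hs0
    have h5 : β g (CFC.sqrt a) * β g (CFC.sqrt a) = a := by
      rw [← map_mul, hss, hfix g]
    exact (CFC.sqrt_unique h5 h4).symm
  refine ⟨⟨CFC.sqrt a, hmem⟩, ?_⟩
  apply Subtype.ext
  change a = star (CFC.sqrt a) * CFC.sqrt a
  rw [(IsSelfAdjoint.of_nonneg hs0).star_eq, hss]

private theorem avgE_id (X : F) :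
    ∑ h, avgE β (X * star (β h X)) = (Fintype.card G : ℂ) • (avgE β X * star (avgE β X)) := by
  apply Subtype.ext
  have e1 : ((∑ h, avgE β (X * star (β h X)) : Fix β) : F)
      = ∑ h, (avgE β (X * star (β h X)) : F) := by
    rw [AddSubmonoidClass.coe_finsetSum]
  have e2 : (((Fintype.card G : ℂ) • (avgE β X * star (avgE β X)) : Fix β) : F)
      = (Fintype.card G : ℂ) • ((avgE β X : F) * star (avgE β X : F)) := rfl
  rw [e1, e2]
  simp only [avgE_coe]
  rw [← Finset.smul_sum, star_smul, star_sum, smul_mul_assoc, mul_smul_comm, smul_smul, smul_smul]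
  have hc : (Fintype.card G : ℂ) * (Fintype.card G : ℂ)⁻¹ * star (Fintype.card G : ℂ)⁻¹
      = (Fintype.card G : ℂ)⁻¹ := by
    rw [mul_inv_cancel₀ (avg_card (G := G)), one_mul]
    simp
  rw [hc]
  congr 1
  rw [Finset.sum_mul_sum, Finset.sum_comm]
  refine Finset.sum_congr rfl fun g _ => ?_
  rw [← Equiv.sum_comp (Equiv.mulLeft g : G ≃ G) (fun k => β g X * star (β k X))]
  refine Finset.sum_congr rfl fun h _ => ?_
  rw [Equiv.coe_mulLeft, avg_mul_apply β g h X, map_mul, map_star]

end avg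

/-- AVG. The state `ψ = χ ∘ E`, `E y = |G|⁻¹ ∑ g, β g y`, and the averaging identity
`∑_h ψ(∑ X β_h(X)*) = |G| ∑ |ψ(X)|²`, because `E(X) E(X)* = |G|⁻¹ ∑_h E(X β_h(X)*)` lies in the fixed
point algebra and `χ` is multiplicative. Positivity: `E(y* y) = |G|⁻¹ ∑ g, (β g y)* (β g y)` is
a positive element `b* b` of the fixed point algebra (or: `E(y*y) ≥ 0` and square root in `Fix β`,
closed subalgebra), `χ (b* b) = |χ b|²`. -/
theorem avg_state {G : Type v} [Group G] [Fintype G] {F : Type u} [CStarAlgebra F]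
    (β : G →* (F ≃⋆ₐ[ℂ] F)) (χ : Fix β →⋆ₐ[ℂ] ℂ) :
    ∃ ψ : F →ₗ[ℂ] ℂ, IsSt ψ ∧ ∀ (Λ : Type) [Fintype Λ] (X : Λ → F),
      ∑ h, ψ (∑ l, X l * star (β h (X l))) = (Fintype.card G : ℂ) * ∑ l, ((‖ψ (X l)‖ ^ 2 : ℝ) : ℂ) := by
  refine ⟨(χ.toAlgHom.toLinearMap).comp (avgE β), ?_, ?_⟩
  · refine ⟨?_, ?_, ?_⟩
    · intro y
      obtain ⟨b, hb⟩ := avgE_pos β y
      change 0 ≤ (χ (avgE β (star y * y))).re
      rw [hb, map_mul, map_star]
      change 0 ≤ ((starRingEnd ℂ) (χ b) * χ b).re
      rw [mul_comm, Complex.mul_conj, Complex.ofReal_re]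
      exact Complex.normSq_nonneg _
    · intro y
      change χ (avgE β (star y)) = (starRingEnd ℂ) (χ (avgE β y))
      rw [avgE_star, map_star]
      rfl
    · change χ (avgE β 1) = 1
      rw [avgE_one, map_one]
  · intro Λ _ X
    have key : ∀ l, ∑ h, χ (avgE β (X l * star (β h (X l))))
        = (Fintype.card G : ℂ) * ((‖χ (avgE β (X l))‖ ^ 2 : ℝ) : ℂ) := by
      intro l
      rw [← map_sum, avgE_id, map_smul, map_mul, map_star, smul_eq_mul]
      congr 1
      change χ (avgE β (X l)) * (starRingEnd ℂ) (χ (avgE β (X l))) = _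
      rw [Complex.mul_conj, Complex.normSq_eq_norm_sq]
    change ∑ h, χ (avgE β (∑ l, X l * star (β h (X l))))
      = (Fintype.card G : ℂ) * ∑ l, ((‖χ (avgE β (X l))‖ ^ 2 : ℝ) : ℂ)
    simp only [map_sum]
    rw [Finset.sum_comm, Finset.mul_sum]
    exact Finset.sum_congr rfl fun l _ => key l

end Vale.Agent.P095E
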