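import Vale.Agent.P095E.Defs
import Vale.Agent.P101K.Main

namespace Vale.Agent.P095E

open Vale.Agent.P101K

universe u v

variable {G : Type v} [Group G] {F : Type u} [CStarAlgebra F] {β : G →* (F ≃⋆ₐ[ℂ] F)}

/-- CP1. -/
theorem fix_closed (β : G →* (F ≃⋆ₐ[ℂ] F)) : IsClosed (Fix β : Set F) := by
  have h : (Fix β : Set F) = ⋂ g : G, {x : F | β g x = x} := by
    ext x
    simp only [SetLike.mem_coe, mem_fix, Set.mem_iInter, Set.mem_ofPred_eq]
  rw [h]
  refine isClosed_iInter fun g => ?_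
  have hc : Continuous (β g) := (StarAlgEquiv.isometry (β g)).continuous
  exact isClosed_eq hc continuous_id

noncomputable instance fixCStar (β : G →* (F ≃⋆ₐ[ℂ] F)) : CStarAlgebra (Fix β) :=
  haveI : IsClosed (Fix β : Set F) := fix_closed β
  StarSubalgebra.cstarAlgebra (Fix β)

instance fixNontrivial [Nontrivial F] (β : G →* (F ≃⋆ₐ[ℂ] F)) : Nontrivial (Fix β) := by
  refine ⟨⟨0, 1, fun h => ?_⟩⟩
  exact zero_ne_one (congrArg (fun z : Fix β => (z : F)) h)

/-- CP2. (apply the hypothesis to `⋃ g, β g '' X`) -/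
theorem eq_hasCopies [Countable G] (h : EqCopies β) : HasCopies F := by
  intro X hX
  have hY : (⋃ g : G, (β g) '' X).Countable := Set.countable_iUnion fun g => hX.image _
  have hinv : ∀ g, ∀ x ∈ ⋃ g : G, (β g) '' X, β g x ∈ ⋃ g : G, (β g) '' X := by
    intro g x hx
    obtain ⟨k, hk⟩ := Set.mem_iUnion.mp hx
    obtain ⟨y, hy, rfl⟩ := hk
    refine Set.mem_iUnion.mpr ⟨g * k, y, hy, ?_⟩
    rw [map_mul]
    rfl
  have hsub : X ⊆ ⋃ g : G, (β g) '' X := by
    intro x hx
    refine Set.mem_iUnion.mpr ⟨1, x, hx, ?_⟩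
    rw [map_one]
    rfl
  obtain ⟨θ, hθ, -⟩ := h _ hY hinv
  have hle : StarAlgebra.adjoin ℂ X ≤ StarAlgebra.adjoin ℂ (⋃ g : G, (β g) '' X) :=
    StarAlgebra.adjoin_mono hsub
  exact ⟨fun i => (θ i).comp (StarSubalgebra.inclusion hle), fun i j hij s t => hθ i j hij _ _⟩

/-- CP3. (for `X ⊆ Fix β` apply the hypothesis to the image of `X` in `F`; by equivariance `θ i`
maps into `Fix β`) -/
theorem fix_hasCopies (h : EqCopies β) : HasCopies (Fix β) := by
  intro X hX
  obtain ⟨θ, hc, he⟩ := h (Subtype.val '' X) (hX.image _) (by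
    rintro g _ ⟨x, hx, rfl⟩
    exact ⟨x, hx, (x.2 g).symm⟩)
  have hm : ∀ x : StarAlgebra.adjoin ℂ X,
      ((Fix β).subtype.comp (StarAlgebra.adjoin ℂ X).subtype) x ∈
        StarAlgebra.adjoin ℂ (Subtype.val '' X) := by
    intro x
    have h1 : (Fix β).subtype (x : Fix β) ∈ (StarAlgebra.adjoin ℂ X).map (Fix β).subtype :=
      ⟨(x : Fix β), x.2, rfl⟩
    rw [StarAlgHom.map_adjoin] at h1
    exact h1
  have hfix : ∀ i (s : StarAlgebra.adjoin ℂ (Subtype.val '' X)), (s : F) ∈ Fix β →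
      θ i s ∈ Fix β := by
    intro i s hs g
    exact (he i g s s (hs g).symm).symm
  refine ⟨fun i => (((θ i).comp (StarAlgHom.codRestrict
    ((Fix β).subtype.comp (StarAlgebra.adjoin ℂ X).subtype) _ hm)).codRestrict (Fix β) ?_), ?_⟩
  · intro x
    exact hfix i _ (x : Fix β).2
  · intro i j hij s t
    exact Subtype.ext (hc i j hij _ _)

/-- CP4. Pass to the range of the action. -/
theorem eqCopies_range (h : EqCopies β) : EqCopies (β.range.subtype) := by
  intro X hX hinv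
  obtain ⟨θ, h1, h2⟩ := h X hX fun g x hx => hinv ⟨β g, ⟨g, rfl⟩⟩ x hx
  refine ⟨θ, h1, fun i g s s' hs => ?_⟩
  obtain ⟨_, g', rfl⟩ := g
  exact h2 i g' s s' hs

/-- CP5. -/
theorem fix_range (β : G →* (F ≃⋆ₐ[ℂ] F)) : Fix β = Fix (β.range.subtype) := by
  ext x
  rw [mem_fix, mem_fix]
  constructor
  · rintro h ⟨_, g', rfl⟩
    exact h g'
  · intro h g
    exact h ⟨β g, ⟨g, rfl⟩⟩

/-- CP6. From `y² = 0`, `y` full (`exists_witness`, `exists_z`, `far_full _ _ _ _ 7`, `exists_orth`,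
`exists_sqz`) and `∑ star a_s * (star y * y) * a_s = 1` (`full_star_mul`, `full_star_form`). -/
theorem exists_y [Nontrivial F] (hF : HasCopies F) (hc : IsEmpty (F →⋆ₐ[ℂ] ℂ)) :
    ∃ (y r : F) (n : ℕ) (a : Fin n → F), y * y = 0 ∧ star r = r ∧ r * r = star y * y ∧
      r * y = 0 ∧ ∑ s, star (a s) * (star y * y) * a s = 1 := by
  let _ := CStarAlgebra.spectralOrder F
  have _ := CStarAlgebra.spectralOrderedRing F
  obtain ⟨z, hz, hz1, hzf⟩ := exists_z hF (exists_witness hc)
  obtain ⟨N, hN, hf⟩ := far_full z hz hz1 hzf 7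
  obtain ⟨E, h01, h10, h0, h1⟩ := exists_orth hF z hz N hN hf
  obtain ⟨y, hy, hyf⟩ := exists_sqz hF E h01 h10 h0 h1
  obtain ⟨n, a, ha⟩ := full_star_form (star y * y) ⟨y, rfl⟩ (full_star_mul y hyf)
  have hnn : 0 ≤ star y * y := star_mul_self_nonneg y
  have hr1 : star (CFC.sqrt (star y * y)) = CFC.sqrt (star y * y) :=
    (CFC.sqrt_nonneg _).isSelfAdjoint.star_eq
  have hr2 : CFC.sqrt (star y * y) * CFC.sqrt (star y * y) = star y * y :=
    CFC.sqrt_mul_sqrt_self _ hnn
  refine ⟨y, CFC.sqrt (star y * y), n, a, hy, hr1, hr2, ?_, ha⟩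
  rw [← CStarRing.star_mul_self_eq_zero_iff, star_mul, hr1]
  calc star y * CFC.sqrt (star y * y) * (CFC.sqrt (star y * y) * y)
      = star y * (CFC.sqrt (star y * y) * CFC.sqrt (star y * y)) * y := by
        simp only [mul_assoc]
    _ = star y * star y * (y * y) := by rw [hr2]; simp only [mul_assoc]
    _ = 0 := by rw [hy, mul_zero]

theorem CP7_inv {X : Set F} (hX : ∀ g, ∀ x ∈ X, β g x ∈ X) (g : G) {v : F}
    (hv : v ∈ StarAlgebra.adjoin ℂ X) : β g v ∈ StarAlgebra.adjoin ℂ X := by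
  have h : StarAlgebra.adjoin ℂ X ≤
      (StarAlgebra.adjoin ℂ X).comap ((β g : F ≃⋆ₐ[ℂ] F) : F →⋆ₐ[ℂ] F) := by
    refine StarAlgebra.adjoin_le fun x hx => ?_
    exact StarAlgebra.subset_adjoin ℂ X (hX g x hx)
  exact h hv

/-- CP7. `x_(s,0) = a_s* y* / √2`, `x_(s,1) = a_s* r / √2` in the copy `θ i`, for the countable
invariant set `{β g y, β g r, β g (a s)}`. -/
theorem dat_exists [Countable G] [Nontrivial F] (h : EqCopies β) (hc : IsEmpty (F →⋆ₐ[ℂ] ℂ)) :
    ∃ n : ℕ, Nonempty (Dat β (Fin n)) := by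
  obtain ⟨y, r, n, a, hyy, hr, hrr, hry, hsum⟩ := exists_y (eq_hasCopies h) hc
  refine ⟨n, ?_⟩
  set W : Set F := {y, r} ∪ Set.range a with hW
  have hWc : W.Countable := (Set.to_countable _).union (Set.countable_range a)
  set X : Set F := ⋃ g : G, (β g) '' W with hXdef
  have hXc : X.Countable := Set.countable_iUnion fun g => hWc.image _
  have hXi : ∀ g, ∀ x ∈ X, β g x ∈ X := by
    intro g x hx
    obtain ⟨g', w, hw, rfl⟩ := Set.mem_iUnion.1 hx
    refine Set.mem_iUnion.2 ⟨g * g', w, hw, ?_⟩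
    rw [map_mul]
    rfl
  have hWX : ∀ w ∈ W, w ∈ StarAlgebra.adjoin ℂ X := by
    intro w hw
    refine StarAlgebra.subset_adjoin ℂ X (Set.mem_iUnion.2 ⟨1, w, hw, ?_⟩)
    rw [map_one]
    rfl
  obtain ⟨θ, hθ1, hθ2⟩ := h X hXc hXi
  set Y : StarAlgebra.adjoin ℂ X := ⟨y, hWX y (Or.inl (Or.inl rfl))⟩ with hY
  set R : StarAlgebra.adjoin ℂ X := ⟨r, hWX r (Or.inl (Or.inr rfl))⟩ with hR
  set A : Fin n → StarAlgebra.adjoin ℂ X := fun s => ⟨a s, hWX (a s) (Or.inr ⟨s, rfl⟩)⟩ with hA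
  have eR : star R = R := Subtype.ext hr
  have eRR : R * R = star Y * Y := Subtype.ext hrr
  have eRY : R * Y = 0 := Subtype.ext hry
  have eYR : star Y * R = 0 := by
    have := congrArg star eRY
    rwa [star_mul, star_zero, eR] at this
  have eS : ∑ s, star (A s) * (star Y * Y) * A s = 1 := by
    refine Subtype.ext ?_
    rw [AddSubmonoidClass.coe_finsetSum]
    exact hsum
  set c : ℂ := (((Real.sqrt 2)⁻¹ : ℝ) : ℂ) with hc'
  have hcc : c * star c = (2⁻¹ : ℂ) := by
    rw [hc', Complex.star_def, Complex.conj_ofReal, ← Complex.ofReal_mul, ← mul_inv,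
      Real.mul_self_sqrt (by norm_num)]
    norm_num
  set E : Fin n → Fin 2 → StarAlgebra.adjoin ℂ X := fun s b =>
    c • (star (A s) * (if b = 0 then star Y else R)) with hE
  have hE0 : ∀ s, E s 0 = c • (star (A s) * star Y) := fun s => by simp [hE]
  have hE1 : ∀ s, E s 1 = c • (star (A s) * R) := fun s => by simp [hE]
  have e00 : ∀ s, E s 0 * star (E s 0) = (2⁻¹ : ℂ) • (star (A s) * (star Y * Y) * A s) := by
    intro s
    rw [hE0, star_smul, smul_mul_smul_comm, hcc, star_mul, star_star, star_star]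
    simp only [mul_assoc]
  have e11 : ∀ s, E s 1 * star (E s 1) = (2⁻¹ : ℂ) • (star (A s) * (star Y * Y) * A s) := by
    intro s
    rw [hE1, star_smul, smul_mul_smul_comm, hcc, star_mul, star_star, eR, ← eRR]
    simp only [mul_assoc]
  have e01 : ∀ s, E s 0 * star (E s 1) = 0 := by
    intro s
    rw [hE0, hE1, star_smul, smul_mul_smul_comm, hcc, star_mul, star_star, eR, mul_assoc,
      ← mul_assoc (star Y), eYR, zero_mul, mul_zero, smul_zero]
  have e10 : ∀ s, E s 1 * star (E s 0) = 0 := by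
    intro s
    have := congrArg star (e01 s)
    rwa [star_mul, star_star, star_zero] at this
  have hcomm : ∀ i j, i ≠ j → ∀ (u v : StarAlgebra.adjoin ℂ X) (g : G),
      Commute (θ i u) (β g (θ j v)) := by
    intro i j hij u v g
    rw [← hθ2 j g v ⟨β g v, CP7_inv hXi g v.2⟩ rfl]
    exact hθ1 i j hij u _
  refine ⟨{ x := fun i s b => θ i (E s b), orth := ?_, same := ?_, sum := ?_, comm := ?_,
            comm' := ?_ }⟩
  · intro i s b b' hbb
    rw [← map_star, ← map_mul]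
    have hz : E s b * star (E s b') = 0 := by
      fin_cases b <;> fin_cases b'
      · exact absurd rfl hbb
      · exact e01 s
      · exact e10 s
      · exact absurd rfl hbb
    rw [hz, map_zero]
  · intro i s b
    rw [← map_star, ← map_mul, ← map_star, ← map_mul]
    have hz : E s b * star (E s b) = E s 0 * star (E s 0) := by
      fin_cases b
      · rfl
      · exact (e11 s).trans (e00 s).symm
    rw [hz]
  · intro i
    have : ∀ s, θ i (E s 0) * star (θ i (E s 0)) =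
        θ i ((2⁻¹ : ℂ) • (star (A s) * (star Y * Y) * A s)) := by
      intro s
      rw [← map_star, ← map_mul, e00]
    simp only [this]
    rw [← map_sum, ← Finset.smul_sum, eS, map_smul, map_one]
  · intro i j hij s b t b' g
    exact hcomm i j hij _ _ g
  · intro i j hij s b t b' g
    rw [← map_star, ← map_star]
    exact hcomm i j hij _ _ g

end Vale.Agent.P095E
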