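import Vale.Agent.P101K.Defs
import Vale.Agent.P101K.DimDrop

namespace Vale.Agent.P095E

open Vale.Agent.P101K

universe u v

/-- the fixed point algebra of an action by `*`-automorphisms -/
def Fix {G : Type v} [Group G] {F : Type u} [CStarAlgebra F] (β : G →* (F ≃⋆ₐ[ℂ] F)) :
    StarSubalgebra ℂ F where
  carrier := {x | ∀ g, β g x = x}
  mul_mem' := by
    intro x y hx hy g
    rw [map_mul, hx g, hy g]
  add_mem' := by
    intro x y hx hy g
    rw [map_add, hx g, hy g]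
  algebraMap_mem' := by
    intro r g
    rw [Algebra.algebraMap_eq_smul_one, map_smul, map_one]
  star_mem' := by
    intro x hx g
    rw [map_star, hx g]

theorem mem_fix {G : Type v} [Group G] {F : Type u} [CStarAlgebra F]
    (β : G →* (F ≃⋆ₐ[ℂ] F)) (x : F) : x ∈ Fix β ↔ ∀ g, β g x = x := Iff.rfl

/-- equivariant commuting copies -/
def EqCopies {G : Type v} [Group G] {F : Type u} [CStarAlgebra F]
    (β : G →* (F ≃⋆ₐ[ℂ] F)) : Prop :=
  ∀ X : Set F, X.Countable → (∀ g, ∀ x ∈ X, β g x ∈ X) →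
    ∃ θ : ℕ → (StarAlgebra.adjoin ℂ X →⋆ₐ[ℂ] F),
      (∀ i j, i ≠ j → ∀ s t, Commute (θ i s) (θ j t)) ∧
      ∀ i g (s s' : StarAlgebra.adjoin ℂ X), (s' : F) = β g s → θ i s' = β g (θ i s)

/-- a state -/
structure IsSt {F : Type u} [Ring F] [Algebra ℂ F] [StarRing F] (ψ : F →ₗ[ℂ] ℂ) : Prop where
  pos : ∀ y, 0 ≤ (ψ (star y * y)).re
  star' : ∀ y, ψ (star y) = (starRingEnd ℂ) (ψ y)
  one : ψ 1 = 1

/-- commuting copies of one family `x s a`, `s ∈ S`, `a ∈ Fin 2` -/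
structure Dat {G : Type v} [Group G] {F : Type u} [CStarAlgebra F]
    (β : G →* (F ≃⋆ₐ[ℂ] F)) (S : Type) [Fintype S] where
  x : ℕ → S → Fin 2 → F
  orth : ∀ i s a b, a ≠ b → x i s a * star (x i s b) = 0
  same : ∀ i s a, x i s a * star (x i s a) = x i s 0 * star (x i s 0)
  sum : ∀ i, ∑ s, x i s 0 * star (x i s 0) = (2⁻¹ : ℂ) • (1 : F)
  comm : ∀ i j, i ≠ j → ∀ s a t b g, Commute (x i s a) (β g (x j t b))
  comm' : ∀ i j, i ≠ j → ∀ s a t b g, Commute (x i s a) (star (β g (x j t b)))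

variable {G : Type v} [Group G] {F : Type u} [CStarAlgebra F] {β : G →* (F ≃⋆ₐ[ℂ] F)}
  {S : Type} [Fintype S]

/-- `w_h = ∑ x_l β_h(x_l)*` in the `i`-th copy -/
noncomputable def wd (D : Dat β S) (h : G) (i : ℕ) : F :=
  ∑ s, ∑ a, D.x i s a * star (β h (D.x i s a))

/-- `w_m w_(m+1) ... w_(m+n-1)` -/
noncomputable def Wg (w : ℕ → F) (m : ℕ) : ℕ → F
  | 0 => 1
  | n + 1 => Wg w m n * w (m + n)

/-- `S_j = 1 + w_j S_(j+1)`, `r` steps -/
noncomputable def Sd (w : ℕ → F) : ℕ → ℕ → F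
  | _, 0 => 1
  | j, r + 1 => 1 + w j * Sd w (j + 1) r

/-- the Toeplitz sum -/
noncomputable def Qd (w : ℕ → F) : ℕ → ℕ → F
  | _, 0 => 1
  | j, r + 1 => 1 + w j * Sd w (j + 1) r + star (w j * Sd w (j + 1) r) + Qd w (j + 1) r

end Vale.Agent.P095E
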