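import Vale.Agent.P095E.Defs

namespace Vale.Agent.P095E

universe u v

variable {G : Type v} [Group G] {F : Type u} [CStarAlgebra F] {β : G →* (F ≃⋆ₐ[ℂ] F)}
  {S : Type} [Fintype S]

theorem FAM12_sum (D : Dat β S) (i : ℕ) :
    ∑ l : S × Fin 2, D.x i l.1 l.2 * star (D.x i l.1 l.2) = 1 := by
  rw [Fintype.sum_prod_type]
  have h1 : ∀ s, ∑ a, D.x i s a * star (D.x i s a) = (2 : ℂ) • (D.x i s 0 * star (D.x i s 0)) := by
    intro s
    rw [Finset.sum_congr rfl fun a _ => D.same i s a, Finset.sum_const, Finset.card_univ,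
      Fintype.card_fin, two_nsmul, two_smul]
  rw [Finset.sum_congr rfl fun s _ => h1 s, ← Finset.smul_sum, D.sum, smul_smul]
  norm_num

/-- FAM1. `w_1 = 1` (`∑ s, ∑ a, x s a * star (x s a) = 2 • 2⁻¹ • 1`). -/
theorem wd_one (D : Dat β S) (i : ℕ) : wd D 1 i = 1 := by
  have h := FAM12_sum D i
  rw [Fintype.sum_prod_type] at h
  unfold wd
  rw [map_one]
  exact h

/-- FAM2. `1 - w* w = ∑ q* q` with `q = star (β h x) - star x * w`. -/
theorem wd_defect (D : Dat β S) (h : G) (i : ℕ) :
    1 - star (wd D h i) * wd D h i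
      = ∑ l : S × Fin 2, star (star (β h (D.x i l.1 l.2)) - star (D.x i l.1 l.2) * wd D h i)
          * (star (β h (D.x i l.1 l.2)) - star (D.x i l.1 l.2) * wd D h i) := by
  have h1 := FAM12_sum D i
  have hβ : ∑ l : S × Fin 2, β h (D.x i l.1 l.2) * star (β h (D.x i l.1 l.2)) = 1 := by
    have h2 := congrArg (β h) h1
    rw [map_sum, map_one] at h2
    rw [← h2]
    refine Finset.sum_congr rfl fun l _ => ?_
    rw [map_mul, map_star]
  have hw : wd D h i = ∑ l : S × Fin 2, D.x i l.1 l.2 * star (β h (D.x i l.1 l.2)) := by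
    rw [Fintype.sum_prod_type]
    rfl
  have hw' : star (wd D h i) = ∑ l : S × Fin 2, β h (D.x i l.1 l.2) * star (D.x i l.1 l.2) := by
    rw [hw, star_sum]
    refine Finset.sum_congr rfl fun l _ => ?_
    rw [star_mul, star_star]
  set w := wd D h i with hwdef
  have e : ∀ l : S × Fin 2, star (star (β h (D.x i l.1 l.2)) - star (D.x i l.1 l.2) * w)
      * (star (β h (D.x i l.1 l.2)) - star (D.x i l.1 l.2) * w) =
      β h (D.x i l.1 l.2) * star (β h (D.x i l.1 l.2)) -
        β h (D.x i l.1 l.2) * star (D.x i l.1 l.2) * w -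
        star w * (D.x i l.1 l.2 * star (β h (D.x i l.1 l.2))) +
        star w * (D.x i l.1 l.2 * star (D.x i l.1 l.2)) * w := by
    intro l
    rw [star_sub, star_star, star_mul, star_star]
    noncomm_ring
  rw [Finset.sum_congr rfl fun l _ => e l, Finset.sum_add_distrib, Finset.sum_sub_distrib,
    Finset.sum_sub_distrib, ← Finset.sum_mul, ← Finset.sum_mul, ← Finset.mul_sum,
    ← Finset.mul_sum, hβ, h1, ← hw, ← hw', mul_one]
  noncomm_ring

theorem FAM3_mul (g h : G) (y : F) : β (g * h) y = β g (β h y) := by
  rw [map_mul]; rfl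

theorem FAM3_one (y : F) : β 1 y = y := by
  rw [map_one]; rfl

theorem FAM3_com {X y : F} (h1 : ∀ g, Commute X (β g y)) (h2 : ∀ g, Commute X (star (β g y)))
    (h : G) : Commute (star (β h X)) (y * star (β h y)) := by
  have a1 : ∀ g, Commute (β h X) (β (h * g) y) := fun g => by
    rw [FAM3_mul]
    exact (h1 g).map (β h)
  have a2 : ∀ g, Commute (β h X) (star (β (h * g) y)) := fun g => by
    rw [FAM3_mul, ← map_star]
    exact (h2 g).map (β h)
  have b1 : Commute (star (β h X)) y := by
    have := (a2 h⁻¹).star_star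
    rw [star_star, mul_inv_cancel, FAM3_one] at this
    exact this
  have b2 : Commute (star (β h X)) (star (β h y)) := by
    have := (a1 1).star_star
    rw [mul_one] at this
    exact this
  exact b1.mul_right b2

/-- FAM3. Product families over the copies `m, ..., m+n-1`, by induction on `n`:
`X' (s,t) (j,a) = X s j * x (m+n) t a`. -/
theorem prod_family (D : Dat β S) (m n : ℕ) :
    ∃ (S' J' : Type) (_ : Fintype S') (_ : Fintype J') (_ : DecidableEq J') (X : S' → J' → F)
      (P : S' → F),
      (∀ s j j', X s j * star (X s j') = if j = j' then P s else 0) ∧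
      (∑ s, P s = (((2⁻¹ : ℝ) ^ n : ℝ) : ℂ) • (1 : F)) ∧
      (∀ h, ∑ s, ∑ j, X s j * star (β h (X s j)) = Wg (wd D h) m n) ∧
      (∀ i, m + n ≤ i → ∀ s j t a g, Commute (X s j) (β g (D.x i t a)) ∧
        Commute (X s j) (star (β g (D.x i t a)))) := by
  induction n with
  | zero =>
    refine ⟨Unit, Unit, inferInstance, inferInstance, inferInstance, fun _ _ => 1, fun _ => 1,
      ?_, ?_, ?_, ?_⟩
    · intro s j j'
      simp
    · simp
    · intro h
      simp [Wg]
    · intro i _ s j t a g
      exact ⟨Commute.one_left _, Commute.one_left _⟩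
  | succ n ih =>
    obtain ⟨S', J', i1, i2, i3, X, P, h1, h2, h3, h4⟩ := ih
    have c1 : ∀ s j t a, Commute (X s j) (D.x (m + n) t a) := fun s j t a => by
      have := (h4 (m + n) le_rfl s j t a 1).1
      rwa [FAM3_one] at this
    have c2 : ∀ s j t a, Commute (X s j) (star (D.x (m + n) t a)) := fun s j t a => by
      have := (h4 (m + n) le_rfl s j t a 1).2
      rwa [FAM3_one] at this
    have hx : ∀ t a b, D.x (m + n) t a * star (D.x (m + n) t b)
        = if a = b then D.x (m + n) t 0 * star (D.x (m + n) t 0) else 0 := by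
      intro t a b
      split_ifs with hab
      · rw [← hab]; exact D.same _ _ _
      · exact D.orth _ _ _ _ hab
    refine ⟨S' × S, J' × Fin 2, inferInstance, inferInstance, inferInstance,
      fun s j => X s.1 j.1 * D.x (m + n) s.2 j.2,
      fun s => P s.1 * (D.x (m + n) s.2 0 * star (D.x (m + n) s.2 0)), ?_, ?_, ?_, ?_⟩
    · rintro ⟨s, t⟩ ⟨j, a⟩ ⟨j', a'⟩
      simp only [star_mul, Prod.mk.injEq]
      have e : X s j * D.x (m + n) t a * (star (D.x (m + n) t a') * star (X s j'))
          = X s j * (D.x (m + n) t a * star (D.x (m + n) t a')) * star (X s j') := by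
        simp only [mul_assoc]
      have c : Commute (D.x (m + n) t 0 * star (D.x (m + n) t 0)) (star (X s j')) := by
        refine Commute.mul_left ?_ ?_
        · have := (c2 s j' t 0).star_star
          rw [star_star] at this
          exact this.symm
        · exact (c1 s j' t 0).star_star.symm
      rw [e, hx]
      by_cases ha : a = a'
      · rw [if_pos ha, mul_assoc, c.eq, ← mul_assoc, h1]
        by_cases hj : j = j'
        · rw [if_pos hj, if_pos ⟨hj, ha⟩]
        · rw [if_neg hj, if_neg (fun hh => hj hh.1), zero_mul]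
      · rw [if_neg ha, if_neg (fun hh => ha hh.2), mul_zero, zero_mul]
    · rw [Fintype.sum_prod_type]
      simp only [← Finset.mul_sum, ← Finset.sum_mul]
      rw [h2, D.sum, smul_mul_smul_comm, one_mul]
      congr 1
      push_cast
      rw [pow_succ]
    · intro h
      have e : ∀ s t j a, X s j * D.x (m + n) t a * star (β h (X s j * D.x (m + n) t a))
          = (X s j * star (β h (X s j))) * (D.x (m + n) t a * star (β h (D.x (m + n) t a))) := by
        intro s t j a
        have c := FAM3_com (X := X s j) (y := D.x (m + n) t a)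
          (fun g => (h4 (m + n) le_rfl s j t a g).1) (fun g => (h4 (m + n) le_rfl s j t a g).2) h
        rw [map_mul, star_mul]
        calc X s j * D.x (m + n) t a * (star (β h (D.x (m + n) t a)) * star (β h (X s j)))
            = X s j * ((D.x (m + n) t a * star (β h (D.x (m + n) t a))) * star (β h (X s j))) := by
              simp only [mul_assoc]
          _ = X s j * (star (β h (X s j)) * (D.x (m + n) t a * star (β h (D.x (m + n) t a)))) := by
              rw [c.eq]
          _ = _ := by rw [mul_assoc]
      simp only [Fintype.sum_prod_type, e]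
      show _ = Wg (wd D h) m n * wd D h (m + n)
      rw [← h3 h]
      unfold wd
      rw [Finset.sum_mul]
      refine Finset.sum_congr rfl fun s _ => ?_
      rw [Finset.mul_sum]
      refine Finset.sum_congr rfl fun t _ => ?_
      rw [Finset.sum_mul]
      refine Finset.sum_congr rfl fun j _ => ?_
      rw [Finset.mul_sum]
    · intro i hi s j t a g
      have hne : m + n ≠ i := by omega
      obtain ⟨k1, k2⟩ := h4 i (by omega) s.1 j.1 t a g
      exact ⟨Commute.mul_left k1 (D.comm _ _ hne _ _ _ _ _),
        Commute.mul_left k2 (D.comm' _ _ hne _ _ _ _ _)⟩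

end Vale.Agent.P095E
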