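import Vale.Agent.P095E.Ind
import Vale.Agent.P101K.Main

open Filter Topology

namespace Vale.Agent.P095E

open Vale.Agent.P101K

universe u v

/-- finitely many relations which exclude characters -/
def Crt {D : Type u} [Ring D] [StarRing D] (y a d v : D) : Prop :=
  y * y = 0 ∧ star y * y = a * a ∧ y * star y = d * d ∧ star v * v = 1 - a - d ∧ a * v = v

/-- SA1. `χ y = 0`, so `χ a = χ d = 0`, so `χ v = 0`, so `χ 1 = 0`. -/
theorem crt_no_char {D : Type u} [Ring D] [Algebra ℂ D] [StarRing D] {y a d v : D}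
    (h : Crt y a d v) : IsEmpty (D →⋆ₐ[ℂ] ℂ) := by
  sorry

/-- SA2. From `main_abstract hD h 1`: `y = Φ(e_10)`, `a = Φ(e_00)`, `d = Φ(e_11)`.  Norms: `a² = Φ(1) a`
gives `‖a‖ ≤ 1`, same for `d`; `‖y‖² = ‖a²‖`, `‖v‖² = ‖1 - Φ 1‖ ≤ 1`. -/
theorem crt_exists {D : Type u} [CStarAlgebra D] [Nontrivial D] (hD : HasCopies D)
    (h : IsEmpty (D →⋆ₐ[ℂ] ℂ)) :
    ∃ y a d v : D, ‖y‖ ≤ 1 ∧ ‖a‖ ≤ 1 ∧ ‖d‖ ≤ 1 ∧ ‖v‖ ≤ 1 ∧ Crt y a d v := by
  sorry

/-- SA3. Diagonal lemma.  `N m` = the largest `n ≤ m` with `c n j m ≤ 1/(n+1)` for all `j ≤ n`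
(or `0`). -/
theorem diag (ω : Ultrafilter ℕ) (hω : (ω : Filter ℕ) ≤ atTop) (c : ℕ → ℕ → ℕ → ℝ)
    (h0 : ∀ n j m, 0 ≤ c n j m) (hc : ∀ n j, j ≤ n → Tendsto (c n j) ω (𝓝 0)) :
    ∃ N : ℕ → ℕ, ∀ j, Tendsto (fun m => c (N m) j m) ω (𝓝 0) := by
  classical
  refine ⟨fun m => Nat.findGreatest (fun n => ∀ j ≤ n, c n j m ≤ 1 / ((n : ℝ) + 1)) m,
    fun j => ?_⟩
  rw [Metric.tendsto_nhds]
  intro ε hε
  obtain ⟨K₀, hK₀⟩ := exists_nat_one_div_lt hε
  obtain ⟨K, hK1, hK2⟩ : ∃ K : ℕ, K₀ ≤ K ∧ j ≤ K :=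
    ⟨max K₀ j, le_max_left _ _, le_max_right _ _⟩
  have hK3 : 1 / ((K : ℝ) + 1) < ε := by
    refine lt_of_le_of_lt ?_ hK₀
    apply one_div_le_one_div_of_le (by positivity)
    have : (K₀ : ℝ) ≤ K := by exact_mod_cast hK1
    linarith
  have e1 : ∀ᶠ m in (ω : Filter ℕ), K ≤ m := hω (eventually_ge_atTop K)
  have e2 : ∀ᶠ m in (ω : Filter ℕ), ∀ i ∈ Finset.range (K + 1), c K i m ≤ 1 / ((K : ℝ) + 1) := by
    rw [Filter.eventually_all_finset]
    intro i hi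
    have hi2 : i ≤ K := Nat.lt_succ_iff.1 (Finset.mem_range.1 hi)
    have h1 := (Metric.tendsto_nhds.1 (hc K i hi2)) (1 / ((K : ℝ) + 1)) (by positivity)
    filter_upwards [h1] with m hm
    rw [Real.dist_eq, sub_zero, abs_of_nonneg (h0 _ _ _)] at hm
    exact hm.le
  filter_upwards [e1, e2] with m hm1 hm2
  have hP : ∀ i ≤ K, c K i m ≤ 1 / ((K : ℝ) + 1) := fun i hi =>
    hm2 i (Finset.mem_range.2 (Nat.lt_succ_of_le hi))
  have hs := Nat.findGreatest_spec (P := fun n => ∀ j ≤ n, c n j m ≤ 1 / ((n : ℝ) + 1)) hm1 hP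
  have hl := Nat.le_findGreatest (P := fun n => ∀ j ≤ n, c n j m ≤ 1 / ((n : ℝ) + 1)) hm1 hP
  rw [Real.dist_eq, sub_zero, abs_of_nonneg (h0 _ _ _)]
  refine lt_of_le_of_lt (hs j (hK2.trans hl)) (lt_of_le_of_lt ?_ hK3)
  apply one_div_le_one_div_of_le (by positivity)
  have : (K : ℝ) ≤ (Nat.findGreatest (fun n => ∀ j ≤ n, c n j m ≤ 1 / ((n : ℝ) + 1)) m : ℕ) := by
    exact_mod_cast hl
  linarith

private theorem fomk_eq_zero_iff {A : Type u} [CStarAlgebra A] [Nontrivial A] {ω : Ultrafilter ℕ} (x : Bdd A) :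
    omk A ω x = 0 ↔ Tendsto (fun n => ‖x n‖) ω (𝓝 0) := by
  constructor
  · intro h
    have h1 := omk_norm A ω x
    rwa [h, norm_zero] at h1
  · intro h
    exact norm_eq_zero.1 (tendsto_nhds_unique (omk_norm A ω x) h)

private theorem fomk_eq_iff {A : Type u} [CStarAlgebra A] [Nontrivial A] {ω : Ultrafilter ℕ} (x y : Bdd A) :
    omk A ω x = omk A ω y ↔ Tendsto (fun n => ‖x n - y n‖) ω (𝓝 0) := by
  rw [← sub_eq_zero, ← map_sub, fomk_eq_zero_iff]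
  rfl

/-- Diagonal sequence: `U_N = {n ≥ N : ∀ j ≤ N, |f j (z^N n)| < 1/(N+1)} ∈ ω`, at `n` use
`z^N n` for the largest `N ≤ n` with `n ∈ U_N`. -/
private theorem fsat_seq {A : Type u} [CStarAlgebra A] (ω : Ultrafilter ℕ)
    (hω : (ω : Filter ℕ) ≤ atTop)
    {m : ℕ} (f : ℕ → (Fin m → A) → ℝ) (R : ℝ)
    (h : ∀ N : ℕ, ∃ z : ℕ → Fin m → A, (∀ n i, ‖z n i‖ ≤ R) ∧
      ∀ j ≤ N, Tendsto (fun n => f j (z n)) ω (𝓝 0)) :
    ∃ z : ℕ → Fin m → A, (∀ n i, ‖z n i‖ ≤ R) ∧ ∀ j, Tendsto (fun n => f j (z n)) ω (𝓝 0) := by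
  classical
  choose z hz1 hz2 using h
  have hpos : ∀ n : ℕ, (0 : ℝ) < 1 / ((n : ℝ) + 1) := fun n => by positivity
  let U : ℕ → ℕ → Prop := fun N n => N ≤ n ∧ ∀ j ∈ Finset.range (N + 1), |f j (z N n)| < 1 / ((N : ℝ) + 1)
  have hU : ∀ N, ∀ᶠ n in (ω : Filter ℕ), U N n := by
    intro N
    have h0 : ∀ᶠ n in (ω : Filter ℕ), N ≤ n := hω (eventually_ge_atTop N)
    refine h0.and ?_
    rw [Finset.eventually_all]
    intro j hj
    have h1 := hz2 N j (Nat.lt_succ_iff.1 (Finset.mem_range.1 hj))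
    have h2 := h1.eventually (Metric.ball_mem_nhds 0 (hpos N))
    filter_upwards [h2] with n hn
    simpa [Real.dist_eq] using hn
  let s : ℕ → ℕ := fun n => Nat.findGreatest (fun N => U N n) n
  refine ⟨fun n => z (s n) n, fun n i => hz1 _ _ _, fun j => ?_⟩
  rw [Metric.tendsto_nhds]
  intro ε hε
  obtain ⟨N, hN⟩ := exists_nat_one_div_lt hε
  filter_upwards [hU (max j N)] with n hn
  have h1 : max j N ≤ s n := Nat.le_findGreatest hn.1 hn
  have h2 : U (s n) n := Nat.findGreatest_spec (P := fun N => U N n) hn.1 hn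
  have h3 := h2.2 j (Finset.mem_range.2 (Nat.lt_succ_of_le ((le_max_left _ _).trans h1)))
  rw [Real.dist_0_eq_abs]
  refine h3.trans (lt_of_le_of_lt ?_ hN)
  have h4 : (N : ℝ) ≤ (s n : ℝ) := by exact_mod_cast (le_max_right _ _).trans h1
  exact one_div_le_one_div_of_le (by positivity) (by linarith)

/-- the five relations as norms, `z = (y, a, d, v)` -/
private def fsatR {A : Type u} [CStarAlgebra A] (j : Fin 5) (z : Fin 4 → A) : ℝ :=
  ![‖z 0 * z 0‖, ‖star (z 0) * z 0 - z 1 * z 1‖, ‖z 0 * star (z 0) - z 2 * z 2‖,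
    ‖star (z 3) * z 3 - (1 - z 1 - z 2)‖, ‖z 1 * z 3 - z 3‖] j

private def fsatF {A : Type u} [CStarAlgebra A] {G : Type v} [Group G] (α : G →* (A ≃⋆ₐ[ℂ] A))
    (a : ℕ → A) (γ : ℕ → G) : Fin 5 ⊕ (Fin 4 × ℕ) ⊕ (Fin 4 × ℕ) → (Fin 4 → A) → ℝ
  | Sum.inl j, z => fsatR j z
  | Sum.inr (Sum.inl (i, k)), z => ‖z i * a k - a k * z i‖
  | Sum.inr (Sum.inr (i, k)), z => ‖α (γ k) (z i) - z i‖

private theorem fsatR_rel {A : Type u} [CStarAlgebra A] [Nontrivial A] {ω : Ultrafilter ℕ}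
    (x : Fin 4 → Bdd A) :
    Crt (omk A ω (x 0)) (omk A ω (x 1)) (omk A ω (x 2)) (omk A ω (x 3)) ↔
      ∀ j, Tendsto (fun n => fsatR j (fun i => x i n)) ω (𝓝 0) := by
  have e0 : omk A ω (x 0) * omk A ω (x 0) = 0 ↔
      Tendsto (fun n => fsatR 0 (fun i => x i n)) ω (𝓝 0) := by
    rw [← map_mul, fomk_eq_zero_iff]
    exact Iff.rfl
  have e1 : star (omk A ω (x 0)) * omk A ω (x 0) = omk A ω (x 1) * omk A ω (x 1) ↔
      Tendsto (fun n => fsatR 1 (fun i => x i n)) ω (𝓝 0) := by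
    rw [← map_star, ← map_mul, ← map_mul, fomk_eq_iff]
    exact Iff.rfl
  have e2 : omk A ω (x 0) * star (omk A ω (x 0)) = omk A ω (x 2) * omk A ω (x 2) ↔
      Tendsto (fun n => fsatR 2 (fun i => x i n)) ω (𝓝 0) := by
    rw [← map_star, ← map_mul, ← map_mul, fomk_eq_iff]
    exact Iff.rfl
  have e3 : star (omk A ω (x 3)) * omk A ω (x 3) = 1 - omk A ω (x 1) - omk A ω (x 2) ↔
      Tendsto (fun n => fsatR 3 (fun i => x i n)) ω (𝓝 0) := by
    rw [← map_star, ← map_mul, ← map_one (omk A ω), ← map_sub, ← map_sub, fomk_eq_iff]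
    exact Iff.rfl
  have e4 : omk A ω (x 1) * omk A ω (x 3) = omk A ω (x 3) ↔
      Tendsto (fun n => fsatR 4 (fun i => x i n)) ω (𝓝 0) := by
    rw [← map_mul, fomk_eq_iff]
    exact Iff.rfl
  unfold Crt
  rw [e0, e1, e2, e3, e4]
  constructor
  · rintro ⟨h0, h1, h2, h3, h4⟩ j
    fin_cases j
    · exact h0
    · exact h1
    · exact h2
    · exact h3
    · exact h4
  · intro h
    exact ⟨h 0, h 1, h 2, h 3, h 4⟩

private theorem fsat_dense {A : Type u} [CStarAlgebra A] {ω : Ultrafilter ℕ} (a : ℕ → A)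
    (ha : DenseRange a) (z : ℕ → A) (hz : ∀ n, ‖z n‖ ≤ 2)
    (h : ∀ k, Tendsto (fun n => ‖z n * a k - a k * z n‖) ω (𝓝 0)) (b : A) :
    Tendsto (fun n => ‖z n * b - b * z n‖) ω (𝓝 0) := by
  rw [Metric.tendsto_nhds]
  intro ε hε
  obtain ⟨k, hk⟩ := ha.exists_dist_lt b (show 0 < ε / 8 by positivity)
  rw [dist_eq_norm] at hk
  have h1 := Metric.tendsto_nhds.1 (h k) (ε / 2) (by positivity)
  filter_upwards [h1] with n hn
  rw [Real.dist_eq, sub_zero, abs_of_nonneg (norm_nonneg _)] at hn ⊢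
  have e : z n * b - b * z n = (z n * a k - a k * z n) + (z n * (b - a k) - (b - a k) * z n) := by
    noncomm_ring
  rw [e]
  have h2 : ‖z n * (b - a k)‖ ≤ 2 * (ε / 8) :=
    (norm_mul_le _ _).trans (mul_le_mul (hz n) hk.le (norm_nonneg _) (by norm_num))
  have h3 : ‖(b - a k) * z n‖ ≤ (ε / 8) * 2 :=
    (norm_mul_le _ _).trans (mul_le_mul hk.le (hz n) (norm_nonneg _) (by positivity))
  have h4 := norm_add_le (z n * a k - a k * z n) (z n * (b - a k) - (b - a k) * z n)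
  have h5 := norm_sub_le (z n * (b - a k)) ((b - a k) * z n)
  linarith

private theorem fcrt_coe {D : Type u} [Ring D] [StarRing D] [Algebra ℂ D] [StarModule ℂ D]
    (S : StarSubalgebra ℂ D) (y a d v : S) :
    Crt y a d v ↔ Crt (y : D) (a : D) (d : D) (v : D) := by
  unfold Crt
  simp only [← Subtype.coe_inj]
  rfl

/-- invariance of `x` under `β g` on representing sequences -/
private theorem fsat_inv {A : Type u} [CStarAlgebra A] [Nontrivial A]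
    {G : Type v} [Group G] {α : G →* (A ≃⋆ₐ[ℂ] A)} {ω : Ultrafilter ℕ}
    {β : G →* (Fom A ω ≃⋆ₐ[ℂ] Fom A ω)} (hβ : IsInd α ω β) (g : G) (x : Bdd A)
    (hx : omk A ω x ∈ Fom A ω) :
    β g ⟨omk A ω x, hx⟩ = ⟨omk A ω x, hx⟩ ↔
      Tendsto (fun n => ‖α g (x n) - x n‖) ω (𝓝 0) := by
  obtain ⟨f, hf⟩ := exists_actBdd (α g)
  rw [Subtype.ext_iff, hβ g x (f x) hx (fun n => hf x n)]
  show omk A ω (f x) = omk A ω x ↔ _
  rw [fomk_eq_iff]
  simp only [hf]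

/-- SA4. Saturation.  Enumerate `G` (`g_k`) and a dense sequence (`e_k`) of `A`; take the solutions for
`{g_0, ..., g_n}`, lifts in `Bdd A` of norm `≤ 2` (`aom_lift` in `P101K/Aomega.lean`), and apply `fsat_seq` to the
norms of the relations, of the commutators with `e_k` and of `α g_k x - x`. -/
theorem fix_sat {A : Type u} [CStarAlgebra A] [Nontrivial A] [TopologicalSpace.SeparableSpace A]
    {G : Type v} [Group G] [Countable G] {α : G →* (A ≃⋆ₐ[ℂ] A)} {ω : Ultrafilter ℕ}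
    (hω : (ω : Filter ℕ) ≤ atTop) {β : G →* (Fom A ω ≃⋆ₐ[ℂ] Fom A ω)} (hβ : IsInd α ω β)
    (h : ∀ s : Finset G, ∃ y a d v : Fom A ω, ‖y‖ ≤ 1 ∧ ‖a‖ ≤ 1 ∧ ‖d‖ ≤ 1 ∧ ‖v‖ ≤ 1 ∧
      Crt y a d v ∧ ∀ g ∈ s, β g y = y ∧ β g a = a ∧ β g d = d ∧ β g v = v) :
    ∃ y a d v : Fom A ω, Crt y a d v ∧ ∀ g, β g y = y ∧ β g a = a ∧ β g d = d ∧ β g v = v := by
  classical
  set a : ℕ → A := TopologicalSpace.denseSeq A with ha
  obtain ⟨γ, hγ⟩ := exists_surjective_nat G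
  set f : ℕ → (Fin 4 → A) → ℝ := fun j z =>
    (Encodable.decode (α := Fin 5 ⊕ (Fin 4 × ℕ) ⊕ (Fin 4 × ℕ)) j).elim 0
      (fun i => fsatF α a γ i z) with hf
  have hfe : ∀ i z, f (Encodable.encode i) z = fsatF α a γ i z := by
    intro i z
    rw [hf]
    simp only [Encodable.encodek, Option.elim]
  have key : ∀ N : ℕ, ∃ z : ℕ → Fin 4 → A, (∀ n i, ‖z n i‖ ≤ 2) ∧
      ∀ j ≤ N, Tendsto (fun n => f j (z n)) ω (𝓝 0) := by
    intro N
    set S : Finset G := (Finset.range (N + 1)).image (fun j =>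
      (Encodable.decode (α := Fin 5 ⊕ (Fin 4 × ℕ) ⊕ (Fin 4 × ℕ)) j).elim 1
        (fun i => match i with
          | Sum.inr (Sum.inr (_, k)) => γ k
          | _ => 1)) with hS
    obtain ⟨w0, w1, w2, w3, hn0, hn1, hn2, hn3, hw, hS2⟩ := h S
    set w : Fin 4 → Fom A ω := ![w0, w1, w2, w3] with hwdef
    have hw1 : ∀ i, ‖w i‖ ≤ 1 := by
      intro i
      fin_cases i
      · exact hn0
      · exact hn1
      · exact hn2
      · exact hn3
    have hwi : ∀ g ∈ S, ∀ i, β g (w i) = w i := by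
      intro g hg i
      obtain ⟨q0, q1, q2, q3⟩ := hS2 g hg
      fin_cases i
      · exact q0
      · exact q1
      · exact q2
      · exact q3
    have hl : ∀ i, ∃ y : Bdd A, omk A ω y = (w i : Aom A ω) ∧ ‖y‖ ≤ 2 :=
      fun i => aom_lift _ 2 (lt_of_le_of_lt (hw1 i) one_lt_two)
    choose y hy hy2 using hl
    have hym : ∀ i, omk A ω (y i) ∈ Fom A ω := by
      intro i
      rw [hy]
      exact (w i).2
    have hyw : ∀ i, (⟨omk A ω (y i), hym i⟩ : Fom A ω) = w i := fun i => Subtype.ext (hy i)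
    refine ⟨fun n i => y i n, fun n i => (aom_apply_le (y i) n).trans (hy2 i), fun j hj => ?_⟩
    have hrel : Crt (omk A ω (y 0)) (omk A ω (y 1)) (omk A ω (y 2)) (omk A ω (y 3)) := by
      simp only [hy]
      exact (fcrt_coe _ _ _ _ _).1 hw
    rw [fsatR_rel] at hrel
    simp only [hf]
    cases hd : (Encodable.decode (α := Fin 5 ⊕ (Fin 4 × ℕ) ⊕ (Fin 4 × ℕ)) j) with
    | none => exact tendsto_const_nhds
    | some i =>
      simp only [Option.elim]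
      rcases i with i | ⟨i, k⟩ | ⟨i, k⟩
      · exact hrel i
      · have h1 := hym i
        rw [omk_mem_fom] at h1
        exact h1 (a k)
      · have hk : γ k ∈ S := by
          rw [hS, Finset.mem_image]
          refine ⟨j, Finset.mem_range.2 (Nat.lt_succ_of_le hj), ?_⟩
          simp only [hd, Option.elim]
        have h2 : β (γ k) ⟨omk A ω (y i), hym i⟩ = ⟨omk A ω (y i), hym i⟩ := by
          rw [hyw]
          exact hwi _ hk i
        exact (fsat_inv hβ (γ k) (y i) (hym i)).1 h2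
  obtain ⟨z, hz, hzf⟩ := fsat_seq ω hω f 2 key
  have hb : ∀ i, Memℓp (fun n => z n i) ⊤ := fun i =>
    memℓp_infty ⟨2, by rintro _ ⟨n, rfl⟩; exact hz n i⟩
  set x : Fin 4 → Bdd A := fun i => ⟨fun n => z n i, hb i⟩ with hx
  have hrel : Crt (omk A ω (x 0)) (omk A ω (x 1)) (omk A ω (x 2)) (omk A ω (x 3)) := by
    rw [fsatR_rel]
    intro j
    have := hzf (Encodable.encode (Sum.inl j : Fin 5 ⊕ (Fin 4 × ℕ) ⊕ (Fin 4 × ℕ)))
    simp only [hfe] at this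
    exact this
  have hcen : ∀ i, omk A ω (x i) ∈ Fom A ω := by
    intro i
    rw [omk_mem_fom]
    refine fsat_dense a (TopologicalSpace.denseRange_denseSeq A) _ (fun n => hz n i) fun k => ?_
    have := hzf (Encodable.encode
      (Sum.inr (Sum.inl (i, k)) : Fin 5 ⊕ (Fin 4 × ℕ) ⊕ (Fin 4 × ℕ)))
    simp only [hfe] at this
    exact this
  have hinv : ∀ g i, β g ⟨omk A ω (x i), hcen i⟩ = ⟨omk A ω (x i), hcen i⟩ := by
    intro g i
    obtain ⟨k, rfl⟩ := hγ g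
    rw [fsat_inv hβ (γ k) (x i) (hcen i)]
    have := hzf (Encodable.encode
      (Sum.inr (Sum.inr (i, k)) : Fin 5 ⊕ (Fin 4 × ℕ) ⊕ (Fin 4 × ℕ)))
    simp only [hfe] at this
    exact this
  exact ⟨⟨omk A ω (x 0), hcen 0⟩, ⟨omk A ω (x 1), hcen 1⟩, ⟨omk A ω (x 2), hcen 2⟩,
    ⟨omk A ω (x 3), hcen 3⟩, (fcrt_coe _ _ _ _ _).2 hrel,
    fun g => ⟨hinv g 0, hinv g 1, hinv g 2, hinv g 3⟩⟩

end Vale.Agent.P095E
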