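import Vale.Agent.P101K.Fomega
import Vale.Agent.P101K.DimDrop

open Filter Topology

namespace Vale.Agent.P095E

open Vale.Agent.P101K

universe u v

theorem cen_mul {A : Type u} [CStarAlgebra A] {ω : Ultrafilter ℕ} {x y : ℕ → A}
    (hx : CenSeq A ω x) (hy : CenSeq A ω y) : CenSeq A ω (fun n => x n * y n) := by
  obtain ⟨⟨C, hC⟩, hxc⟩ := hx
  obtain ⟨⟨D, hD⟩, hyc⟩ := hy
  have hC0 : 0 ≤ C := (norm_nonneg _).trans (hC 0)
  refine ⟨⟨C * D, fun n => (norm_mul_le _ _).trans
    (mul_le_mul (hC n) (hD n) (norm_nonneg _) hC0)⟩, fun a => ?_⟩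
  have h1 := ((hyc a).const_mul C).add ((hxc a).mul_const D)
  rw [mul_zero, zero_mul, add_zero] at h1
  refine squeeze_zero (fun n => norm_nonneg _) (fun n => ?_) h1
  have e : x n * y n * a - a * (x n * y n) = x n * (y n * a - a * y n) + (x n * a - a * x n) * y n := by
    noncomm_ring
  rw [e]
  refine (norm_add_le _ _).trans (add_le_add ?_ ?_)
  · exact (norm_mul_le _ _).trans (mul_le_mul_of_nonneg_right (hC n) (norm_nonneg _))
  · exact (norm_mul_le _ _).trans (mul_le_mul_of_nonneg_left (hD n) (norm_nonneg _))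

theorem cen_add {A : Type u} [CStarAlgebra A] {ω : Ultrafilter ℕ} {x y : ℕ → A}
    (hx : CenSeq A ω x) (hy : CenSeq A ω y) : CenSeq A ω (fun n => x n + y n) := by
  obtain ⟨⟨C, hC⟩, hxc⟩ := hx
  obtain ⟨⟨D, hD⟩, hyc⟩ := hy
  refine ⟨⟨C + D, fun n => (norm_add_le _ _).trans (add_le_add (hC n) (hD n))⟩, fun a => ?_⟩
  have h1 := (hxc a).add (hyc a)
  rw [add_zero] at h1
  refine squeeze_zero (fun n => norm_nonneg _) (fun n => ?_) h1
  have e : (x n + y n) * a - a * (x n + y n) = (x n * a - a * x n) + (y n * a - a * y n) := by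
    noncomm_ring
  rw [e]
  exact norm_add_le _ _

theorem cen_star {A : Type u} [CStarAlgebra A] {ω : Ultrafilter ℕ} {x : ℕ → A}
    (hx : CenSeq A ω x) : CenSeq A ω (fun n => star (x n)) := by
  obtain ⟨⟨C, hC⟩, hxc⟩ := hx
  refine ⟨⟨C, fun n => by rw [norm_star]; exact hC n⟩, fun a => ?_⟩
  refine (hxc (star a)).congr fun n => ?_
  rw [← norm_star, star_sub, star_mul, star_mul, star_star, norm_sub_rev]

theorem cen_one {A : Type u} [CStarAlgebra A] {ω : Ultrafilter ℕ} :
    CenSeq A ω (fun _ => (1 : A)) := by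
  refine ⟨⟨‖(1 : A)‖, fun _ => le_rfl⟩, fun a => ?_⟩
  simp

theorem cen_smul {A : Type u} [CStarAlgebra A] {ω : Ultrafilter ℕ} {x : ℕ → A} (c : ℂ)
    (hx : CenSeq A ω x) : CenSeq A ω (fun n => c • x n) := by
  obtain ⟨⟨C, hC⟩, hxc⟩ := hx
  refine ⟨⟨‖c‖ * C, fun n => by
    rw [norm_smul]
    exact mul_le_mul_of_nonneg_left (hC n) (norm_nonneg _)⟩, fun a => ?_⟩
  have h1 := (hxc a).const_mul ‖c‖
  rw [mul_zero] at h1
  refine h1.congr fun n => ?_
  rw [smul_mul_assoc, mul_smul_comm, ← smul_sub, norm_smul]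

/-- the fixed point algebra `F_ω(A)^α` of the action induced by `α` on `F = F_ω(A)`: the classes `π x`
of the bounded `ω`-central sequences with `lim_(n → ω) ‖α_g (x n) - x n‖ = 0` for every `g` -/
def FixF {A : Type u} [CStarAlgebra A] {ω : Ultrafilter ℕ} {F : Type u} [CStarAlgebra F]
    {π : (ℕ → A) → F} (hF : IsFomega A ω F π) {G : Type v} [Group G]
    (α : G →* (A ≃⋆ₐ[ℂ] A)) : StarSubalgebra ℂ F where
  carrier := {y | ∃ x, CenSeq A ω x ∧ π x = y ∧
    ∀ g, Tendsto (fun n => ‖α g (x n) - x n‖) ω (𝓝 0)}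
  mul_mem' := by
    rintro y y' ⟨x, hx, hxy, hxg⟩ ⟨x', hx', hxy', hxg'⟩
    refine ⟨fun n => x n * x' n, cen_mul hx hx', ?_, fun g => ?_⟩
    · rw [hF.map_mul x x' hx hx', hxy, hxy']
    · obtain ⟨C, hC⟩ := hx.1
      obtain ⟨D, hD⟩ := hx'.1
      have h1 := ((hxg' g).const_mul C).add ((hxg g).mul_const D)
      rw [mul_zero, zero_mul, add_zero] at h1
      refine squeeze_zero (fun n => norm_nonneg _) (fun n => ?_) h1
      have e : α g (x n * x' n) - x n * x' n
          = α g (x n) * (α g (x' n) - x' n) + (α g (x n) - x n) * x' n := by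
        rw [map_mul]
        noncomm_ring
      rw [e]
      refine (norm_add_le _ _).trans (add_le_add ?_ ?_)
      · refine (norm_mul_le _ _).trans (mul_le_mul_of_nonneg_right ?_ (norm_nonneg _))
        exact (NonUnitalStarAlgHom.norm_apply_le (α g) (x n)).trans (hC n)
      · exact (norm_mul_le _ _).trans (mul_le_mul_of_nonneg_left (hD n) (norm_nonneg _))
  add_mem' := by
    rintro y y' ⟨x, hx, hxy, hxg⟩ ⟨x', hx', hxy', hxg'⟩
    refine ⟨fun n => x n + x' n, cen_add hx hx', ?_, fun g => ?_⟩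
    · rw [hF.map_add x x' hx hx', hxy, hxy']
    · have h1 := (hxg g).add (hxg' g)
      rw [add_zero] at h1
      refine squeeze_zero (fun n => norm_nonneg _) (fun n => ?_) h1
      have e : α g (x n + x' n) - (x n + x' n) = (α g (x n) - x n) + (α g (x' n) - x' n) := by
        rw [map_add]
        abel
      rw [e]
      exact norm_add_le _ _
  algebraMap_mem' := by
    intro r
    refine ⟨fun _ => r • (1 : A), cen_smul r cen_one, ?_, fun g => ?_⟩
    · rw [hF.map_smul r _ cen_one, hF.map_one, Algebra.algebraMap_eq_smul_one]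
    · simp only [map_smul, map_one, sub_self, norm_zero]
      exact tendsto_const_nhds
  star_mem' := by
    rintro y ⟨x, hx, hxy, hxg⟩
    refine ⟨fun n => star (x n), cen_star hx, ?_, fun g => ?_⟩
    · rw [hF.map_star x hx, hxy]
    · refine (hxg g).congr fun n => ?_
      rw [map_star, ← star_sub, norm_star]

end Vale.Agent.P095E
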