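import Vale.Agent.P095E.Ind
import Vale.Agent.P095E.FixF

open Filter Topology

namespace Vale.Agent.P095E

open Vale.Agent.P101K

universe u v

/-- TR. From the concrete to the abstract model: `star_factor (rhoA A ω) rhoA_surj (rhoF hF)` gives
`θ : F_ω(A) → F` with `θ (rhoA x) = rhoF x`; it maps `Fix β` into `FixF hF α`. -/
theorem fix_to_fixF {A : Type u} [CStarAlgebra A] [Nontrivial A] {G : Type v} [Group G]
    {α : G →* (A ≃⋆ₐ[ℂ] A)} {ω : Ultrafilter ℕ} {β : G →* (Fom A ω ≃⋆ₐ[ℂ] Fom A ω)}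
    (hβ : IsInd α ω β) {F : Type u} [CStarAlgebra F] {π : (ℕ → A) → F}
    (hF : IsFomega A ω F π) : Nonempty (Fix β →⋆ₐ[ℂ] FixF hF α) := by
  obtain ⟨θ, hθ⟩ := star_factor (rhoA A ω) rhoA_surj (rhoF hF)
    fun s hs => (rhoF_zero hF s).2 ((rhoA_zero s).1 hs)
  have hmem : ∀ y : Fix β, θ (y : Fom A ω) ∈ FixF hF α := by
    rintro ⟨y, hy⟩
    obtain ⟨x, rfl⟩ := rhoA_surj y
    refine ⟨fun n => (x : Bdd A) n, csub_cen x, (hθ x).symm, fun g => ?_⟩
    obtain ⟨f, hf⟩ := exists_actBdd (α g)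
    have h1 : ((β g (rhoA A ω x) : Fom A ω) : Aom A ω) = omk A ω (f (x : Bdd A)) :=
      hβ g (x : Bdd A) (f (x : Bdd A)) x.2 fun n => hf _ n
    have h2 : β g (rhoA A ω x) = rhoA A ω x := hy g
    rw [h2] at h1
    have h3 : omk A ω (x : Bdd A) = omk A ω (f (x : Bdd A)) := h1
    have h4 : omk A ω (f (x : Bdd A) - (x : Bdd A)) = 0 := by
      rw [map_sub, h3, sub_self]
    have h5 := (omk_zero_iff (f (x : Bdd A) - (x : Bdd A))).1 h4
    have h6 : (fun n => ‖(f (x : Bdd A) - (x : Bdd A)) n‖) =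
        fun n => ‖α g ((x : Bdd A) n) - (x : Bdd A) n‖ := by
      funext n
      rw [← hf]
      rfl
    rw [h6] at h5
    exact h5
  exact ⟨(θ.comp (Fix β).subtype).codRestrict (FixF hF α) hmem⟩

end Vale.Agent.P095E
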