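import Vale.Agent.P095E.Mn
import Vale.Agent.P095E.Sat
import Vale.Agent.P095E.Tr

open Filter Topology

namespace Vale.Agent.P095E

open Vale.Agent.P101K

universe u v

private theorem FI1_incl {F : Type u} [CStarAlgebra F] {X X' : Set F}
    (hle : StarAlgebra.adjoin ℂ X ≤ StarAlgebra.adjoin ℂ X') (s : StarAlgebra.adjoin ℂ X) :
    ((StarSubalgebra.inclusion hle s : StarAlgebra.adjoin ℂ X') : F) = s := by
  obtain ⟨s, hs⟩ := s
  simp

/-- FI1. (apply the hypothesis to `⋃ g, β g '' X` and restrict) -/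
theorem eqCopies_comp {G : Type v} [Group G] [Countable G] {F : Type u} [CStarAlgebra F]
    {β : G →* (F ≃⋆ₐ[ℂ] F)} (h : EqCopies β) (K : Subgroup G) :
    EqCopies (β.comp K.subtype) := by
  intro X hX _
  let X' : Set F := ⋃ g : G, (fun x => β g x) '' X
  have hX' : X'.Countable := Set.countable_iUnion fun g => hX.image _
  have hsub : X ⊆ X' := by
    intro x hx
    refine Set.mem_iUnion.2 ⟨1, x, hx, ?_⟩
    have h1 : β 1 = 1 := map_one β
    simp only [h1, StarAlgEquiv.one_apply]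
  have hinv : ∀ g, ∀ x ∈ X', β g x ∈ X' := by
    intro g x hx
    obtain ⟨k, y, hy, hxy⟩ := Set.mem_iUnion.1 hx
    refine Set.mem_iUnion.2 ⟨g * k, y, hy, ?_⟩
    have h1 : β (g * k) = β g * β k := map_mul β g k
    simp only [h1, StarAlgEquiv.mul_apply]
    rw [← hxy]
  obtain ⟨θ, h1, h2⟩ := h X' hX' hinv
  have hle : StarAlgebra.adjoin ℂ X ≤ StarAlgebra.adjoin ℂ X' := StarAlgebra.adjoin_mono hsub
  refine ⟨fun i => (θ i).comp (StarSubalgebra.inclusion hle), ?_, ?_⟩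
  · intro i j hij s t
    rw [StarAlgHom.comp_apply, StarAlgHom.comp_apply]
    exact h1 i j hij _ _
  · intro i g s s' hs
    have hg : (β.comp K.subtype) g = β (g : G) := rfl
    rw [hg] at hs ⊢
    rw [StarAlgHom.comp_apply, StarAlgHom.comp_apply]
    refine h2 i (g : G) (StarSubalgebra.inclusion hle s) (StarSubalgebra.inclusion hle s') ?_
    rw [FI1_incl hle s, FI1_incl hle s']
    exact hs

/-- FI2. No characters on `F_ω(A)^α` when every finitely generated subgroup of `G` has a subgroup of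
finite index which acts by inner automorphisms. -/
theorem loc_no_char {A : Type u} [CStarAlgebra A] [Nontrivial A]
    [TopologicalSpace.SeparableSpace A] {G : Type v} [Group G] [Countable G]
    {α : G →* (A ≃⋆ₐ[ℂ] A)} {ω : Ultrafilter ℕ} (hω : (ω : Filter ℕ) ≤ atTop)
    {β : G →* (Fom A ω ≃⋆ₐ[ℂ] Fom A ω)} (hβ : IsInd α ω β)
    (hc : IsEmpty (Fom A ω →⋆ₐ[ℂ] ℂ))
    (hG : ∀ s : Finset G, ∃ H ≤ Subgroup.closure (s : Set G),
      H.relIndex (Subgroup.closure (s : Set G)) ≠ 0 ∧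
      ∀ h ∈ H, ∃ u ∈ unitary A, ∀ a, α h a = u * a * star u) :
    IsEmpty (Fix β →⋆ₐ[ℂ] ℂ) := by
  sorry

theorem final {A : Type u} [CStarAlgebra A] [Nontrivial A]
    [TopologicalSpace.SeparableSpace A] {G : Type v} [Group G] [Countable G]
    (α : G →* (A ≃⋆ₐ[ℂ] A)) {ω : Ultrafilter ℕ} (hω : (ω : Filter ℕ) ≤ atTop)
    (hG : ∀ s : Finset G, ∃ H ≤ Subgroup.closure (s : Set G),
      H.relIndex (Subgroup.closure (s : Set G)) ≠ 0 ∧
      ∀ h ∈ H, ∃ u ∈ unitary A, ∀ a, α h a = u * a * star u)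
    {F : Type u} [CStarAlgebra F] {π : (ℕ → A) → F} (hF : IsFomega A ω F π)
    (hc : IsEmpty (F →⋆ₐ[ℂ] ℂ)) (k : ℕ) :
    Nonempty (DimDrop (Fin (k + 2)) (Fin (k + 3)) →⋆ₐ[ℂ] FixF hF α) := by
  obtain ⟨β, hβ⟩ := exists_ind α ω
  obtain ⟨θ⟩ := fomega_to_fom hF
  have h' : IsEmpty (Fom A ω →⋆ₐ[ℂ] ℂ) := ⟨fun χ => hc.false (χ.comp θ)⟩
  obtain ⟨θ'⟩ := fix_to_fixF hβ hF
  obtain ⟨κ⟩ := dimdrop_of_no_char (fix_hasCopies (ind_eqCopies hω hβ))
    (loc_no_char hω hβ h' hG) k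
  exact ⟨θ'.comp κ⟩

end Vale.Agent.P095E
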