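import Vale.Agent.P095E.Defs
import Vale.Agent.P101K.Cop
import Vale.Agent.P101K.Fomega
import Vale.Agent.P101K.Transfer
import Vale.Agent.P095.FomCop
import Vale.Agent.P095.Act

open Filter Topology

namespace Vale.Agent.P095E

open Vale.Agent.P101K

universe u v

variable {A : Type u} [CStarAlgebra A] [Nontrivial A] {G : Type v} [Group G]
  {α : G →* (A ≃⋆ₐ[ℂ] A)} {ω : Ultrafilter ℕ}

/-- `β` is the action on `F_ω(A)` induced by the action `α` on `A` -/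
def IsInd (α : G →* (A ≃⋆ₐ[ℂ] A)) (ω : Ultrafilter ℕ)
    (β : G →* (Fom A ω ≃⋆ₐ[ℂ] Fom A ω)) : Prop :=
  ∀ g (x y : Bdd A) (hx : omk A ω x ∈ Fom A ω), (∀ n, y n = α g (x n)) →
    ((β g ⟨omk A ω x, hx⟩ : Fom A ω) : Aom A ω) = omk A ω y

/-- IN1. (`‖a x‖ = ‖x‖` for a `*`-automorphism, as in `exists_reidx`) -/
theorem exists_actBdd (a : A ≃⋆ₐ[ℂ] A) :
    ∃ f : Bdd A →⋆ₐ[ℂ] Bdd A, ∀ x n, (f x) n = a (x n) := ⟨Vale.Agent.P095.bmap (a : A →⋆ₐ[ℂ] A), fun _ _ => rfl⟩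

/-- IN2. The induced action. -/
theorem exists_ind (α : G →* (A ≃⋆ₐ[ℂ] A)) (ω : Ultrafilter ℕ) :
    ∃ β : G →* (Fom A ω ≃⋆ₐ[ℂ] Fom A ω), IsInd α ω β := by
  have hact := Vale.Agent.P095.fomAct_isAct ω α
  have h1 : ∀ g (x : Fom A ω), Vale.Agent.P095.fomAct ω α g⁻¹ (Vale.Agent.P095.fomAct ω α g x) = x := by
    intro g x
    rw [← hact.mul, inv_mul_cancel, hact.one]
  have h2 : ∀ g (x : Fom A ω), Vale.Agent.P095.fomAct ω α g (Vale.Agent.P095.fomAct ω α g⁻¹ x) = x := by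
    intro g x
    rw [← hact.mul, mul_inv_cancel, hact.one]
  let β : G →* (Fom A ω ≃⋆ₐ[ℂ] Fom A ω) :=
    { toFun := fun g => StarAlgEquiv.ofStarAlgHom (Vale.Agent.P095.fomAct ω α g)
        (Vale.Agent.P095.fomAct ω α g⁻¹) (StarAlgHom.ext (h1 g)) (StarAlgHom.ext (h2 g))
      map_one' := StarAlgEquiv.ext fun x => hact.one x
      map_mul' := fun g h => StarAlgEquiv.ext fun x => hact.mul g h x }
  refine ⟨β, ?_⟩
  intro g x y hx hy
  have h3 : ((β g ⟨omk A ω x, hx⟩ : Fom A ω) : Aom A ω)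
      = Vale.Agent.P095.aomMap ω (Vale.Agent.P095.actHom α g) (omk A ω x) := rfl
  rw [h3, Vale.Agent.P095.aomMap_omk]
  congr 1
  exact lp.ext (funext fun n => (hy n).symm)

private theorem IN3_act {β : G →* (Fom A ω ≃⋆ₐ[ℂ] Fom A ω)} (hβ : IsInd α ω β) (g : G)
    (x : Fom A ω) : Vale.Agent.P095.fomAct ω α g x = β g x := by
  obtain ⟨x, hx⟩ := x
  obtain ⟨y, rfl⟩ := omk_surjective A ω x
  apply Subtype.ext
  rw [Vale.Agent.P095.fomAct_coe, Vale.Agent.P095.aomMap_omk]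
  exact (hβ g y _ hx (fun n => rfl)).symm

/-- IN3. Equivariant copies: the proof of `fom_hasCopies` with the set of lifts
`⋃ g, α g '' (lift '' X)`. -/
theorem ind_eqCopies [TopologicalSpace.SeparableSpace A] [Countable G]
    (hω : (ω : Filter ℕ) ≤ atTop) {β : G →* (Fom A ω ≃⋆ₐ[ℂ] Fom A ω)} (hβ : IsInd α ω β) :
    EqCopies β := by
  intro X hX _
  obtain ⟨C, hC, hXC, θ, hθc, _, hθe⟩ := Vale.Agent.P095.fom_eqCopies A ω hω α X hX
  have hle : StarAlgebra.adjoin ℂ X ≤ C := StarAlgebra.adjoin_le hXC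
  refine ⟨fun i => (θ i).comp (StarSubalgebra.inclusion hle), fun i j hij s t =>
    hθc i j hij _ _, fun i g s s' hs => ?_⟩
  have h1 := hθe i g (StarSubalgebra.inclusion hle s)
  rw [IN3_act hβ] at h1
  show θ i (StarSubalgebra.inclusion hle s') = β g (θ i (StarSubalgebra.inclusion hle s))
  rw [h1]
  congr 1
  apply Subtype.ext
  show (s' : Fom A ω) = Vale.Agent.P095.fomAct ω α g (s : Fom A ω)
  rw [hs, IN3_act hβ]

/-- IN4. Inner automorphisms act trivially: `u x_n u* - x_n → 0`. -/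
theorem ind_inner {β : G →* (Fom A ω ≃⋆ₐ[ℂ] Fom A ω)} (hβ : IsInd α ω β) (g : G) (u : A)
    (hu : u ∈ unitary A) (h : ∀ a, α g a = u * a * star u) : β g = 1 := by
  sorry

/-- IN5. -/
theorem ind_finite {β : G →* (Fom A ω ≃⋆ₐ[ℂ] Fom A ω)} (hβ : IsInd α ω β) (K H : Subgroup G)
    (hHK : H ≤ K) (hfin : H.relIndex K ≠ 0)
    (hH : ∀ h ∈ H, ∃ u ∈ unitary A, ∀ a, α h a = u * a * star u) :
    Finite ((β.comp K.subtype).range) := by
  sorry

end Vale.Agent.P095E
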