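import Vale.Agent.P095E.NoCh
import Vale.Agent.P095E.Cp
import Vale.Agent.P101K.Final

namespace Vale.Agent.P095E

open Vale.Agent.P101K

universe u v

variable {G : Type v} [Group G] {F : Type u} [CStarAlgebra F] {β : G →* (F ≃⋆ₐ[ℂ] F)}

/-- the fixed point algebra has no characters (finite range of the action) -/
theorem fix_no_char [Countable G] [Nontrivial F] (h : EqCopies β) (hc : IsEmpty (F →⋆ₐ[ℂ] ℂ))
    (hfin : Finite β.range) : IsEmpty (Fix β →⋆ₐ[ℂ] ℂ) := by
  haveI : Fintype β.range := Fintype.ofFinite _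
  obtain ⟨n, ⟨D⟩⟩ := dat_exists (eqCopies_range h) hc
  rw [fix_range β]
  exact no_char_of_dat D

theorem main_fix [Countable G] [Nontrivial F] (h : EqCopies β) (hc : IsEmpty (F →⋆ₐ[ℂ] ℂ))
    (hfin : Finite β.range) (k : ℕ) :
    Nonempty (DimDrop (Fin (k + 2)) (Fin (k + 3)) →⋆ₐ[ℂ] Fix β) :=
  dimdrop_of_no_char (fix_hasCopies h) (fix_no_char h hc hfin) k

end Vale.Agent.P095E
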