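import Vale.Agent.P095E.St
import Vale.Agent.P095E.Avg
import Vale.Agent.P095E.Fam

namespace Vale.Agent.P095E

universe u v

theorem NCH_geom (k : ℕ) : ∑ n ∈ Finset.range k, (2⁻¹ : ℝ) ^ (n + 1) ≤ 1 := by
  have h : ∑ n ∈ Finset.range k, (2⁻¹ : ℝ) ^ (n + 1) = 1 - (2⁻¹ : ℝ) ^ k := by
    induction k with
    | zero => simp
    | succ k ih =>
      rw [Finset.sum_range_succ, ih]
      ring
  rw [h]
  have : (0 : ℝ) < (2⁻¹ : ℝ) ^ k := by positivity
  linarith

theorem NCH_wg_one {F : Type u} [CStarAlgebra F] {w : ℕ → F} (hw : ∀ i, w i = 1) (m n : ℕ) :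
    Wg w m n = 1 := by
  induction n with
  | zero => rfl
  | succ n ih =>
    show Wg w m n * w (m + n) = 1
    rw [ih, hw, one_mul]

theorem NCH_count (r : ℕ) : ∑ i ∈ Finset.range r, ((r - i : ℕ) : ℝ) = (r : ℝ) * (r + 1) / 2 := by
  induction r with
  | zero => simp
  | succ r ih =>
    rw [Finset.sum_range_succ']
    have h : ∀ i ∈ Finset.range r, ((r + 1 - (i + 1) : ℕ) : ℝ) = ((r - i : ℕ) : ℝ) := by
      intro i _
      congr 1
      omega
    rw [Finset.sum_congr rfl h, ih, Nat.sub_zero]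
    push_cast
    ring

/-- NCH. No characters on the fixed point algebra.  For `χ` take `ψ` of `avg_state`.  By
`prod_family` and `st_bessel`, `∑_h Re ψ(W_h(m,n)) ≤ |G| 2^(-n)`.  By `st_toep` and `wd_defect`
`Re ψ(Q_h) ≥ 0` for every `h`, and `Re ψ(Q_1) = (r+1)²` (`wd_one`, `qd_expand`).  So
`(r+1)² ≤ ∑_h Re ψ(Q_h) ≤ |G|(r+1) + 2 (r+1) |G|`, contradiction for `r = 3|G|`. -/
theorem no_char_of_dat {G : Type v} [Group G] [Fintype G] {F : Type u} [CStarAlgebra F]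
    {β : G →* (F ≃⋆ₐ[ℂ] F)} {S : Type} [Fintype S] (D : Dat β S) :
    IsEmpty (Fix β →⋆ₐ[ℂ] ℂ) := by
  refine ⟨fun χ => ?_⟩
  obtain ⟨ψ, hψ, havg⟩ := avg_state β χ
  have hN0 : (0 : ℝ) < (Fintype.card G : ℝ) := by
    exact_mod_cast Fintype.card_pos
  -- the upper bound for the words
  have hup : ∀ m n : ℕ, ∑ h, (ψ (Wg (wd D h) m n)).re ≤ (Fintype.card G : ℝ) * (2⁻¹ : ℝ) ^ n := by
    intro m n
    obtain ⟨S', J', i1, i2, i3, X, P, hX, hP, hW, -⟩ := prod_family D m n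
    have h1 := havg (S' × J') (fun l => X l.1 l.2)
    have h2 : ∀ h, ∑ l : S' × J', X l.1 l.2 * star (β h (X l.1 l.2)) = Wg (wd D h) m n := by
      intro h
      rw [← hW h, Fintype.sum_prod_type]
    simp only [h2] at h1
    have h3 := congrArg Complex.re h1
    rw [Complex.re_sum] at h3
    rw [h3]
    have h4 : ((Fintype.card G : ℂ) * ∑ l : S' × J', ((‖ψ (X l.1 l.2)‖ ^ 2 : ℝ) : ℂ)).re =
        (Fintype.card G : ℝ) * ∑ l : S' × J', ‖ψ (X l.1 l.2)‖ ^ 2 := by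
      rw [← Complex.ofReal_sum, ← Complex.ofReal_natCast, ← Complex.ofReal_mul, Complex.ofReal_re]
    rw [h4, Fintype.sum_prod_type]
    exact mul_le_mul_of_nonneg_left (st_bessel hψ X P hX _ hP) hN0.le
  -- positivity of the Toeplitz sums
  have hpos : ∀ h (r : ℕ), 0 ≤ (ψ (Qd (wd D h) 0 r)).re := by
    intro h r
    exact st_toep hψ (wd D h) (fun i (l : S × Fin 2) =>
      star (β h (D.x i l.1 l.2)) - star (D.x i l.1 l.2) * wd D h i) (wd_defect D h) 0 r
  -- the unit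
  have hone : ∀ r : ℕ, (ψ (Qd (wd D 1) 0 r)).re = (r + 1 : ℝ) ^ 2 := by
    intro r
    rw [qd_expand hψ]
    have h1 : ∀ m n, (ψ (Wg (wd D 1) m n)).re = 1 := by
      intro m n
      rw [NCH_wg_one (wd_one D), hψ.one, Complex.one_re]
    simp only [h1, Finset.sum_const, Finset.card_range, nsmul_eq_mul, mul_one]
    rw [NCH_count]
    ring
  obtain ⟨r, hr⟩ : ∃ r : ℕ, r = 3 * Fintype.card G := ⟨_, rfl⟩
  have hsum : (r + 1 : ℝ) ^ 2 ≤ ∑ h, (ψ (Qd (wd D h) 0 r)).re := by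
    rw [← hone r]
    exact Finset.single_le_sum (f := fun h => (ψ (Qd (wd D h) 0 r)).re)
      (fun h _ => hpos h r) (Finset.mem_univ (1 : G))
  have hexp : ∑ h, (ψ (Qd (wd D h) 0 r)).re ≤
      (Fintype.card G : ℝ) * (r + 1) + 2 * (r * (Fintype.card G : ℝ)) := by
    have h1 : ∑ h, (ψ (Qd (wd D h) 0 r)).re = (Fintype.card G : ℝ) * (r + 1) +
        2 * ∑ i ∈ Finset.range r, ∑ n ∈ Finset.range (r - i),
          ∑ h, (ψ (Wg (wd D h) (0 + i) (n + 1))).re := by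
      rw [Finset.sum_congr rfl (fun h _ => qd_expand hψ (wd D h) 0 r), Finset.sum_add_distrib,
        Finset.sum_const, Finset.card_univ, nsmul_eq_mul, ← Finset.mul_sum, Finset.sum_comm]
      congr 2
      refine Finset.sum_congr rfl fun i _ => ?_
      rw [Finset.sum_comm]
    rw [h1]
    have h2 : ∑ i ∈ Finset.range r, ∑ n ∈ Finset.range (r - i),
          ∑ h, (ψ (Wg (wd D h) (0 + i) (n + 1))).re ≤
        ∑ i ∈ Finset.range r, (Fintype.card G : ℝ) := by
      refine Finset.sum_le_sum fun i _ => ?_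
      calc ∑ n ∈ Finset.range (r - i), ∑ h, (ψ (Wg (wd D h) (0 + i) (n + 1))).re
          ≤ ∑ n ∈ Finset.range (r - i), (Fintype.card G : ℝ) * (2⁻¹ : ℝ) ^ (n + 1) :=
            Finset.sum_le_sum fun n _ => hup (0 + i) (n + 1)
        _ = (Fintype.card G : ℝ) * ∑ n ∈ Finset.range (r - i), (2⁻¹ : ℝ) ^ (n + 1) := by
            rw [Finset.mul_sum]
        _ ≤ (Fintype.card G : ℝ) * 1 := mul_le_mul_of_nonneg_left (NCH_geom _) hN0.le
        _ = (Fintype.card G : ℝ) := mul_one _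
    rw [Finset.sum_const, Finset.card_range, nsmul_eq_mul] at h2
    linarith
  have hr' : (r : ℝ) = 3 * (Fintype.card G : ℝ) := by
    rw [hr]
    push_cast
    ring
  have h := hsum.trans hexp
  rw [hr'] at h
  nlinarith

end Vale.Agent.P095E
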