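import Vale.Agent.P095E.Defs

namespace Vale.Agent.P095E

universe u

variable {F : Type u} [CStarAlgebra F]

/-- ST1. Cauchy-Schwarz.  Expand `ψ (star y * y) ≥ 0` for `y = star V - t • 1` with `t = star (ψ V)`. -/
theorem st_cs {ψ : F →ₗ[ℂ] ℂ} (h : IsSt ψ) (V : F) : ‖ψ V‖ ^ 2 ≤ (ψ (V * star V)).re := by
  obtain ⟨c, hc⟩ : ∃ c, c = ψ V := ⟨_, rfl⟩
  have h1 := h.pos (star V - (starRingEnd ℂ c) • (1 : F))
  have h2 : star (star V - (starRingEnd ℂ c) • (1 : F)) * (star V - (starRingEnd ℂ c) • (1 : F)) =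
      V * star V - (starRingEnd ℂ c) • V - c • star V + (c * starRingEnd ℂ c) • (1 : F) := by
    have e : star (star V - (starRingEnd ℂ c) • (1 : F)) = V - c • (1 : F) := by
      rw [star_sub, star_star, star_smul, star_one, starRingEnd_apply, star_star]
    rw [e, sub_mul, mul_sub, mul_sub, smul_mul_assoc, one_mul, smul_mul_assoc, one_mul,
      mul_smul_comm, mul_one, smul_smul]
    abel
  rw [h2, map_add, map_sub, map_sub, map_smul, map_smul, map_smul, h.star', h.one, ← hc] at h1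
  rw [← hc]
  have e1 : (starRingEnd ℂ c) • c = ((‖c‖ ^ 2 : ℝ) : ℂ) := by
    rw [smul_eq_mul, mul_comm, Complex.mul_conj, Complex.normSq_eq_norm_sq]
  have e2 : c • (starRingEnd ℂ c) = ((‖c‖ ^ 2 : ℝ) : ℂ) := by
    rw [smul_eq_mul, Complex.mul_conj, Complex.normSq_eq_norm_sq]
  have e3 : (c * starRingEnd ℂ c) • (1 : ℂ) = ((‖c‖ ^ 2 : ℝ) : ℂ) := by
    rw [smul_eq_mul, mul_one, Complex.mul_conj, Complex.normSq_eq_norm_sq]
  rw [e1, e2, e3, Complex.add_re, Complex.sub_re, Complex.sub_re, Complex.ofReal_re] at h1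
  linarith

/-- ST2. Bessel.  For fixed `s` let `c j = ψ (X s j)`, `V = ∑ j, star (c j) • X s j`: then
`ψ V = R = ∑ ‖c j‖²`, `V V* = R • P s`, so `R² ≤ R ψ(P s)` by `st_cs` and `R ≤ ψ (P s)`; sum over `s`. -/
theorem st_bessel {ψ : F →ₗ[ℂ] ℂ} (h : IsSt ψ) {S' J' : Type} [Fintype S'] [Fintype J']
    [DecidableEq J'] [Nonempty J'] (X : S' → J' → F) (P : S' → F)
    (hX : ∀ s j j', X s j * star (X s j') = if j = j' then P s else 0) (ρ : ℝ)
    (hP : ∑ s, P s = (ρ : ℂ) • (1 : F)) :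
    ∑ s, ∑ j, ‖ψ (X s j)‖ ^ 2 ≤ ρ := by
  have key : ∀ s, ∑ j, ‖ψ (X s j)‖ ^ 2 ≤ (ψ (P s)).re := by
    intro s
    obtain ⟨R, hR⟩ : ∃ R : ℝ, R = ∑ j, ‖ψ (X s j)‖ ^ 2 := ⟨_, rfl⟩
    have hR0 : 0 ≤ R := by rw [hR]; positivity
    rw [← hR]
    have hV : ψ (∑ j, (starRingEnd ℂ (ψ (X s j))) • X s j) = (R : ℂ) := by
      rw [map_sum, hR]
      push_cast
      refine Finset.sum_congr rfl fun j _ => ?_
      rw [map_smul, smul_eq_mul, mul_comm, Complex.mul_conj, Complex.normSq_eq_norm_sq]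
      push_cast
      rfl
    have hVV : (∑ j, (starRingEnd ℂ (ψ (X s j))) • X s j) *
        star (∑ j, (starRingEnd ℂ (ψ (X s j))) • X s j) = (R : ℂ) • P s := by
      rw [star_sum, Finset.sum_mul_sum, hR]
      push_cast
      rw [Finset.sum_smul]
      refine Finset.sum_congr rfl fun j _ => ?_
      rw [Finset.sum_eq_single j]
      · rw [star_smul, smul_mul_assoc, mul_smul_comm, hX, if_pos rfl, smul_smul,
          starRingEnd_apply, star_star, ← starRingEnd_apply, mul_comm, Complex.mul_conj,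
          Complex.normSq_eq_norm_sq]
        push_cast
        rfl
      · intro j' _ hj'
        rw [star_smul, smul_mul_assoc, mul_smul_comm, hX, if_neg (Ne.symm hj'), smul_zero,
          smul_zero]
      · intro hj
        exact absurd (Finset.mem_univ j) hj
    have h1 := st_cs h (∑ j, (starRingEnd ℂ (ψ (X s j))) • X s j)
    rw [hV, hVV, map_smul, smul_eq_mul, Complex.re_ofReal_mul, Complex.norm_real,
      Real.norm_of_nonneg hR0] at h1
    rcases hR0.lt_or_eq with h2 | h2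
    · nlinarith
    · rw [← h2]
      obtain ⟨j⟩ := (inferInstance : Nonempty J')
      have h3 := st_cs h (X s j)
      rw [hX, if_pos rfl] at h3
      have h4 : 0 ≤ ‖ψ (X s j)‖ ^ 2 := by positivity
      linarith
  calc ∑ s, ∑ j, ‖ψ (X s j)‖ ^ 2 ≤ ∑ s, (ψ (P s)).re := Finset.sum_le_sum fun s _ => key s
    _ = (ψ (∑ s, P s)).re := by rw [map_sum, Complex.re_sum]
    _ = ρ := by rw [hP, map_smul, h.one, smul_eq_mul, mul_one, Complex.ofReal_re]

theorem ST3_strong {ψ : F →ₗ[ℂ] ℂ} (h : IsSt ψ) {L : Type} [Fintype L] (w : ℕ → F) (q : ℕ → L → F)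
    (hq : ∀ i, 1 - star (w i) * w i = ∑ l, star (q i l) * q i l) (r : ℕ) :
    ∀ j, 0 ≤ (ψ (Qd w j r - star (Sd w j r) * Sd w j r)).re := by
  induction r with
  | zero =>
    intro j
    simp [Qd, Sd]
  | succ r ih =>
    intro j
    have e : Qd w j (r + 1) - star (Sd w j (r + 1)) * Sd w j (r + 1)
        = (Qd w (j + 1) r - star (Sd w (j + 1) r) * Sd w (j + 1) r)
          + ∑ l, star (q j l * Sd w (j + 1) r) * (q j l * Sd w (j + 1) r) := by
      have e1 : ∑ l, star (q j l * Sd w (j + 1) r) * (q j l * Sd w (j + 1) r)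
          = star (Sd w (j + 1) r) * (1 - star (w j) * w j) * Sd w (j + 1) r := by
        rw [hq j, Finset.mul_sum, Finset.sum_mul]
        refine Finset.sum_congr rfl fun l _ => ?_
        rw [star_mul]
        noncomm_ring
      rw [e1]
      show (1 + w j * Sd w (j + 1) r + star (w j * Sd w (j + 1) r) + Qd w (j + 1) r)
        - star (1 + w j * Sd w (j + 1) r) * (1 + w j * Sd w (j + 1) r) = _
      rw [star_add, star_one, star_mul]
      noncomm_ring
    rw [e, map_add, Complex.add_re, map_sum, Complex.re_sum]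
    exact add_nonneg (ih (j + 1)) (Finset.sum_nonneg fun l _ => h.pos _)

/-- ST3. Positivity of the Toeplitz sum.  Induction on `r` (all `j`) of the stronger statement
`0 ≤ (ψ (Qd w j r - star (Sd w j r) * Sd w j r)).re`, because
`Q_j - S_j* S_j = (Q_(j+1) - S_(j+1)* S_(j+1)) + S_(j+1)* (1 - w_j* w_j) S_(j+1)`. -/
theorem st_toep {ψ : F →ₗ[ℂ] ℂ} (h : IsSt ψ) {L : Type} [Fintype L] (w : ℕ → F) (q : ℕ → L → F)
    (hq : ∀ i, 1 - star (w i) * w i = ∑ l, star (q i l) * q i l) (j r : ℕ) :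
    0 ≤ (ψ (Qd w j r)).re := by
  have h1 := ST3_strong h w q hq r j
  have h2 := h.pos (Sd w j r)
  rw [map_sub, Complex.sub_re] at h1
  linarith

private theorem st4_shift (w : ℕ → F) (j n : ℕ) : w j * Wg w (j + 1) n = Wg w j (n + 1) := by
  induction n with
  | zero =>
    show w j * 1 = 1 * w (j + 0)
    rw [mul_one, one_mul, Nat.add_zero]
  | succ n ih =>
    show w j * (Wg w (j + 1) n * w (j + 1 + n)) = Wg w j (n + 1) * w (j + (n + 1))
    rw [← mul_assoc, ih, Nat.add_assoc, Nat.add_comm 1 n]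

/-- ST4. `S_j = ∑_(n ≤ r) W(j, n)`. -/
theorem sd_expand (w : ℕ → F) (j r : ℕ) : Sd w j r = ∑ n ∈ Finset.range (r + 1), Wg w j n := by
  induction r generalizing j with
  | zero => simp [Sd, Wg]
  | succ r ih =>
    rw [Finset.sum_range_succ']
    show 1 + w j * Sd w (j + 1) r = _
    rw [ih (j + 1), Finset.mul_sum, add_comm]
    simp only [st4_shift]
    rfl

/-- ST5. Expansion of the Toeplitz sum (uses `sd_expand` and `w j * Wg w (j+1) n = Wg w j (n+1)`). -/
theorem qd_expand {ψ : F →ₗ[ℂ] ℂ} (h : IsSt ψ) (w : ℕ → F) (j r : ℕ) :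
    (ψ (Qd w j r)).re = (r + 1 : ℝ)
      + 2 * ∑ i ∈ Finset.range r, ∑ n ∈ Finset.range (r - i), (ψ (Wg w (j + i) (n + 1))).re := by
  induction r generalizing j with
  | zero => simp [Qd, h.one]
  | succ r ih =>
    have hA : w j * Sd w (j + 1) r = ∑ n ∈ Finset.range (r + 1), Wg w j (n + 1) := by
      rw [sd_expand, Finset.mul_sum]
      simp only [st4_shift]
    have e : Qd w j (r + 1) = 1 + w j * Sd w (j + 1) r + star (w j * Sd w (j + 1) r)
        + Qd w (j + 1) r := rfl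
    rw [e, map_add, map_add, map_add, h.star', h.one, Complex.add_re, Complex.add_re,
      Complex.add_re, Complex.conj_re, Complex.one_re, ih (j + 1), hA, map_sum, Complex.re_sum,
      Finset.sum_range_succ' (fun i => ∑ n ∈ Finset.range (r + 1 - i),
        (ψ (Wg w (j + i) (n + 1))).re) r]
    have e2 : ∑ i ∈ Finset.range r, ∑ n ∈ Finset.range (r + 1 - (i + 1)),
        (ψ (Wg w (j + (i + 1)) (n + 1))).re
        = ∑ i ∈ Finset.range r, ∑ n ∈ Finset.range (r - i),
          (ψ (Wg w (j + 1 + i) (n + 1))).re := by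
      refine Finset.sum_congr rfl fun i _ => ?_
      rw [Nat.add_sub_add_right, Nat.add_assoc, Nat.add_comm 1 i]
    simp only [Nat.sub_zero, Nat.add_zero] at e2 ⊢
    rw [e2]
    push_cast
    ring

end Vale.Agent.P095E
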